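import Vale.Agent.P167.Fjord.Defs

/-!
# P167, block CG3 (CELL): definitions and statements

* `VB`, `FB`, `EB`: closed boxes around a vertex, the centre of a face, the midpoint of an edge;
  the boxes of radius `1/4` are the cells of the corner lattice;
* `Dm`: the closed diamond (square) of an edge;
* `RO`, `LO`: the right and the left side of the explored path, as subsets of the plane;
* `S_cellP`, `S_cellD`: a connected set of `Om \ RO` (of `Om \ LO`) gives a path of fresh edges to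
  the left side (of fresh dual edges to the right side).
-/

open Set Metric

namespace Vale.Agent.P167.H634

open Vale.Agent.P167.E6 Vale.Agent.P167.E2
open Vale.Agent.P167.Fjord (Wd)

/-- Closed box of radius `δ ρ` around `δ (x + i y)`. -/
def Bx (δ ρ x y : ℝ) : Set ℂ := {z | |z.re - δ * x| ≤ δ * ρ ∧ |z.im - δ * y| ≤ δ * ρ}

/-- Box around a vertex. -/
def VB (δ ρ : ℝ) (v : ℤ × ℤ) : Set ℂ := Bx δ ρ v.1 v.2

/-- Box around the centre of a face. -/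
def FB (δ ρ : ℝ) (f : ℤ × ℤ) : Set ℂ := Bx δ ρ (f.1 + 1 / 2) (f.2 + 1 / 2)

/-- Box around the midpoint of the edge from `u` to `v`. -/
def EB (δ ρ : ℝ) (u v : ℤ × ℤ) : Set ℂ := Bx δ ρ ((u.1 + v.1) / 2) ((u.2 + v.2) / 2)

/-- The closed diamond of the edge from `u` to `v`. -/
def Dm (δ : ℝ) (u v : ℤ × ℤ) : Set ℂ :=
  {z | |z.re - δ * ((u.1 + v.1) / 2)| + |z.im - δ * ((u.2 + v.2) / 2)| ≤ δ / 2}

/-- The centre of a face. -/
noncomputable def cf (δ : ℝ) (f : ℤ × ℤ) : ℂ := (δ : ℂ) * (pt f + (1 + Complex.I) / 2)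

section

variable {n : ℕ} (p : ZMod n → ℤ × ℤ) (k : ℕ) (S : Finset (ℤ × ℤ)) (A : Finset (Sym2 (ℤ × ℤ)))

/-- The free outer zone: the points at distance at least `δ / 4` of the closed domain which are near
a free vertex or in the diamond of an edge of the polygon which is not wired. -/
def RX (δ : ℝ) : Set ℂ :=
  {z | (∀ w ∈ region δ S, δ / 4 ≤ |z.re - w.re| ∨ δ / 4 ≤ |z.im - w.im|) ∧
    ((∃ i : ℕ, i < k ∧ z ∈ VB δ (3 / 8) (p i)) ∨
      ∃ i : ℕ, i < n ∧ s(p i, p (i + 1)) ∉ Wd p k ∧ z ∈ Dm δ (p i) (p (i + 1)))}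

/-- The right side of the path up to the step `τ`: cells of the visited faces (of the domain),
cells of the explored closed edges, free outer zone. -/
def RO (δ : ℝ) (τ : ℕ) : Set ℂ :=
  {z | (∃ i ≤ τ, fc (run p k A i) ∈ S ∧ z ∈ FB δ (1 / 4) (fc (run p k A i))) ∨
    (∃ i < τ, ahead (run p k A i) ∈ edges S ∧ ahead (run p k A i) ∉ wiredOpen p k A ∧
      z ∈ EB δ (1 / 4) (run p k A i).1 ((run p k A i).1 + dir ((run p k A i).2 + 1))) ∨
    z ∈ RX p k S δ}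

/-- The left side of the path up to the step `τ`: cells of the visited vertices and of the wired
vertices, cells of the explored open edges and of the wired edges. -/
def LO (δ : ℝ) (τ : ℕ) : Set ℂ :=
  {z | (∃ i ≤ τ, z ∈ VB δ (1 / 4) (run p k A i).1) ∨
    (∃ i : ℕ, k ≤ i ∧ i < n ∧ z ∈ VB δ (1 / 4) (p i)) ∨
    (∃ i < τ, ahead (run p k A i) ∈ wiredOpen p k A ∧
      z ∈ EB δ (1 / 4) (run p k A i).1 ((run p k A i).1 + dir ((run p k A i).2 + 1))) ∨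
    ∃ i : ℕ, k ≤ i ∧ i + 1 < n ∧ z ∈ EB δ (1 / 4) (p i) (p (i + 1))}

/-- Fresh edges outside of `Q`. -/
def Fr (Q : Set (Sym2 (ℤ × ℤ))) (τ : ℕ) (e : Sym2 (ℤ × ℤ)) : Prop :=
  e ∈ edges S ∧ e ∉ Wd p k ∧ e ∉ Q ∧ ∀ i < τ, ahead (run p k A i) ≠ e

/-- Step along a fresh edge whose diamond meets `C`. -/
def PSt (δ : ℝ) (Q : Set (Sym2 (ℤ × ℤ))) (C : Set ℂ) (τ : ℕ) (u v : ℤ × ℤ) : Prop :=
  (∃ r, v = u + dir r) ∧ Fr p k S A Q τ s(u, v) ∧ (Dm δ u v ∩ C).Nonempty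

/-- Dual step from the face `f` to the face `g` across a fresh edge whose diamond meets `C`. -/
def DSt (δ : ℝ) (Q : Set (Sym2 (ℤ × ℤ))) (C : Set ℂ) (τ : ℕ) (f g : ℤ × ℤ) : Prop :=
  ∃ u r, ((f = face u r ∧ g = face u (r - 1)) ∨ (g = face u r ∧ f = face u (r - 1))) ∧
    Fr p k S A Q τ s(u, u + dir r) ∧ (Dm δ u (u + dir r) ∩ C).Nonempty

end

/-- The set `C` avoids the diamonds of the edges in `Q`: every point of `C` is in the diamond of an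
edge which is not in `Q`, and at the centres of faces (at the vertices) which are in `C` the
edges in `Q` are contiguous. -/
structure Avo (δ : ℝ) (Q : Set (Sym2 (ℤ × ℤ))) (C : Set ℂ) : Prop where
  av : ∀ z ∈ C, ∃ u r, s(u, u + dir r) ∉ Q ∧ z ∈ Dm δ u (u + dir r)
  cf : ∀ f, cf δ f ∈ C → ∀ r : Fin 4,
    s(f + ![(0, 0), (1, 0), (1, 1), (0, 1)] r, f + ![(0, 0), (1, 0), (1, 1), (0, 1)] (r + 1)) ∉ Q →
    s(f + ![(0, 0), (1, 0), (1, 1), (0, 1)] (r + 2),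
      f + ![(0, 0), (1, 0), (1, 1), (0, 1)] (r + 3)) ∉ Q →
    s(f + ![(0, 0), (1, 0), (1, 1), (0, 1)] (r + 1),
      f + ![(0, 0), (1, 0), (1, 1), (0, 1)] (r + 2)) ∉ Q ∨
    s(f + ![(0, 0), (1, 0), (1, 1), (0, 1)] (r + 3), f + ![(0, 0), (1, 0), (1, 1), (0, 1)] r) ∉ Q
  pt : ∀ v, (δ : ℂ) * pt v ∈ C → ∀ r : Fin 4, s(v, v + dir r) ∉ Q → s(v, v + dir (r + 2)) ∉ Q →
    s(v, v + dir (r + 1)) ∉ Q ∨ s(v, v + dir (r + 3)) ∉ Q

/-- The edges in `Q` are away from the boundary. -/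
def Deep (S : Finset (ℤ × ℤ)) (Q : Set (Sym2 (ℤ × ℤ))) : Prop :=
  ∀ e ∈ Q, ∀ v ∈ e, ∀ r, face v r ∈ S

/-- The point `z` is at distance less than `δ / 16` from the path up to the step `τ` or from the
boundary of the domain. -/
def Near {n : ℕ} (p : ZMod n → ℤ × ℤ) (k : ℕ) (S : Finset (ℤ × ℤ)) (A : Finset (Sym2 (ℤ × ℤ)))
    (δ : ℝ) (τ : ℕ) (z : ℂ) : Prop :=
  ∃ x ∈ pl p k δ A '' Icc 0 (τ + 1) ∪ frontier (Om δ S), |z.re - x.re| < δ / 16 ∧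
    |z.im - x.im| < δ / 16

/-- **CELL, primal.** -/
def S_cellP : Prop :=
  ∀ {n : ℕ} {p : ZMod n → ℤ × ℤ} {S : Finset (ℤ × ℤ)} {k : ℕ} {A : Finset (Sym2 (ℤ × ℤ))}
    {δ : ℝ}, 0 < δ → IsPolygon p → Encloses p S → 0 < k → k + 1 < n → A ⊆ edges S →
    ∀ (τ : ℕ), τ ≤ len p k A → ∀ (Q : Set (Sym2 (ℤ × ℤ))), Deep S Q →
    (∀ i < τ, ahead (run p k A i) ∉ Q) →
    ∀ C : Set ℂ, IsPreconnected C → C ⊆ Om δ S → Disjoint C (RO p k S A δ τ) → Avo δ Q C →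
    ∀ v₀, (δ : ℂ) * pt v₀ ∈ C → (∃ z ∈ C, Near p k S A δ τ z) →
    ∃ v₁, ((∃ i ≤ τ, v₁ = (run p k A i).1) ∨ ∃ i : ℕ, k ≤ i ∧ i < n ∧ v₁ = p i) ∧
      Relation.ReflTransGen (PSt p k S A δ Q C τ) v₀ v₁

/-- **CELL, dual.** The path ends at a visited face or crosses an edge of the polygon which is not
wired. -/
def S_cellD : Prop :=
  ∀ {n : ℕ} {p : ZMod n → ℤ × ℤ} {S : Finset (ℤ × ℤ)} {k : ℕ} {A : Finset (Sym2 (ℤ × ℤ))}
    {δ : ℝ}, 0 < δ → IsPolygon p → Encloses p S → 0 < k → k + 1 < n → A ⊆ edges S →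
    ∀ (τ : ℕ), τ ≤ len p k A → ∀ (Q : Set (Sym2 (ℤ × ℤ))), Deep S Q →
    (∀ i < τ, ahead (run p k A i) ∉ Q) →
    ∀ C : Set ℂ, IsPreconnected C → C ⊆ Om δ S → Disjoint C (LO p k A δ τ) → Avo δ Q C →
    ∀ f₀ ∈ S, cf δ f₀ ∈ C → (∃ z ∈ C, Near p k S A δ τ z) →
    ∃ f₁, ((∃ i ≤ τ, f₁ = fc (run p k A i)) ∨ f₁ ∉ S) ∧
      Relation.ReflTransGen (fun f g => f ∈ S ∧ DSt p k S A δ Q C τ f g) f₀ f₁

end Vale.Agent.P167.H634
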