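import Vale.Agent.P167.H634.CellQ
import Vale.Agent.P167.H531.PosDefs
import Vale.Agent.P167.Fjord.Pos

/-!
# P167, block CG3 (CELL): the statements with the inputs of `H531/PosDefs`

* `Dsq_eq`: the closed diamonds of `H531` are the closed squares of `AvoQ`;
* `deep_mar`, `unread_mar`: consequences of the margin `PosP.mar`;
* `cell_left`, `cell_right`: CELL for the data `CDat` and a medial polygon with a margin;
* `disj_RO`, `disj_LO`: a set of points of the domain is off the right (left) side as soon as its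
  positions are off the positions of the labels.
-/

open Set Metric

namespace Vale.Agent.P167.H634

open Vale.Agent.P167.E6 Vale.Agent.P167.E2 Vale.Agent.P167.H531
open Vale.Agent.P167.H161 (zp eo ec sp sr)
open Vale.Agent.P167.H192 (rf rf' sq ed IsEdge ed_sq sq_ed ed_inj isEdge_ed even_ro odd_rf
  ro_inj ro_ro' rf_rf' rf'_rf sq_mk ro_dir isEdge_edges dq mem_dq)
open Vale.Agent.P164 (loewnerDomain Zf)
open Vale.Agent.P153.R2.R1 (mb)

variable {n : ℕ} {p : ZMod n → ℤ × ℤ} {k : ℕ} {S : Finset (ℤ × ℤ)}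
  {A : Finset (Sym2 (ℤ × ℤ))} {δ : ℝ} {j : ℕ} {ψ : ℂ → ℂ} {W : ℝ → ℝ} {t : ℝ}
  {T R Rd cd Y : ℝ}

/-- The closed diamonds are the closed squares. -/
theorem Dsq_eq (hδ : 0 < δ) (v : ℤ × ℤ) : Dsq δ v = SqD δ v := by
  have hδ' : (δ : ℂ) ≠ 0 := by exact_mod_cast hδ.ne'
  ext z
  have e : z = (δ : ℂ) * (z / δ) := (mul_div_cancel₀ _ hδ').symm
  set x : ℂ := z / δ with hx
  have e1 : z.re = δ * x.re := by rw [e, Complex.re_ofReal_mul]
  have e2 : z.im = δ * x.im := by rw [e, Complex.im_ofReal_mul]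
  have g1 : z.re - (zp δ v).re - δ / 2 = δ * (x.re - (v.1 + v.2 + 1) / 2) := by
    rw [e1, H161.zp_re]
    ring
  have g2 : z.im - (zp δ v).im = δ * (x.im - (v.2 - v.1) / 2) := by
    rw [e2, H161.zp_im]
    ring
  have h1 : z ∈ Dsq δ v ↔ |x.re - (v.1 + v.2 + 1) / 2| + |x.im - (v.2 - v.1) / 2| ≤ 1 / 2 := by
    unfold Dsq
    rw [mem_ofPred_eq, g1, g2, abs_mul, abs_mul, abs_of_pos hδ, ← mul_add]
    constructor
    · intro h
      exact le_of_mul_le_mul_left (by linarith) hδ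
    · intro h
      have := mul_le_mul_of_nonneg_left h hδ.le
      linarith
  rw [h1, abs2_le]
  show _ ↔ x ∈ Sq1 v
  unfold Sq1
  rw [mem_ofPred_eq]
  constructor
  · rintro ⟨h1, h2, h3, h4⟩
    refine ⟨⟨?_, ?_⟩, ?_, ?_⟩ <;> linarith
  · rintro ⟨⟨h1, h2⟩, h3, h4⟩
    refine ⟨?_, ?_, ?_, ?_⟩ <;> linarith

/-- The even corners of a square are in its closed diamond. -/
theorem zp_mem_Dsq (hδ : 0 < δ) (u : ℤ × ℤ) (r : Fin 4) :
    (δ : ℂ) * pt u ∈ Dsq δ (sq s(u, u + dir r)) := by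
  rw [Dsq_eq hδ, ← Dm_sq hδ, mem_Dm hδ]
  have key : ∀ r : Fin 4, pt u ∈ D1 u (u + dir r) := by
    refine forall4 ?_ ?_ ?_ ?_ <;>
      simp only [D1, dir0, dir1, dir2, dir3, Prod.fst_add, Prod.snd_add, mem_ofPred_eq, abs2_le,
        pt_re, pt_im] <;> push_cast <;> refine ⟨?_, ?_, ?_, ?_⟩ <;> linarith
  exact key r

theorem c_re (f : ℤ × ℤ) : (pt f + (1 + Complex.I) / 2).re = f.1 + 1 / 2 := by simp [pt_re]

theorem c_im (f : ℤ × ℤ) : (pt f + (1 + Complex.I) / 2).im = f.2 + 1 / 2 := by simp [pt_im]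

/-- A face whose centre is in the domain is enclosed. -/
theorem mem_of_cf (hδ : 0 < δ) {f : ℤ × ℤ} (h : cf δ f ∈ Om δ S) : f ∈ S := by
  unfold cf at h
  rw [mem_Om hδ] at h
  obtain ⟨g, hg, h1, h2, h3, h4⟩ := h
  rw [c_re] at h1 h2
  rw [c_im] at h3 h4
  have a1 : f.1 = g.1 := int_eq_of (by linarith) (by linarith)
  have a2 : f.2 = g.2 := int_eq_of (by linarith) (by linarith)
  have : f = g := Prod.ext a1 a2
  rw [this]
  exact hg

/-- The centres of the faces around a vertex. -/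
theorem dist_cf (hδ : 0 < δ) (u : ℤ × ℤ) (r : Fin 4) : dist (cf δ (face u r)) ((δ : ℂ) * pt u) ≤ δ := by
  unfold cf
  rw [dist_eq_norm, ← mul_sub, norm_mul, Complex.norm_real, Real.norm_of_nonneg hδ.le]
  have h1 : ‖pt (face u r) + (1 + Complex.I) / 2 - pt u‖ ≤ 1 := by
    refine (Complex.norm_le_abs_re_add_abs_im _).trans ?_
    have key : ∀ r : Fin 4, |(pt (face u r) + (1 + Complex.I) / 2 - pt u).re| +
        |(pt (face u r) + (1 + Complex.I) / 2 - pt u).im| ≤ 1 := by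
      refine forall4 ?_ ?_ ?_ ?_ <;> rw [Complex.sub_re, Complex.sub_im, c_re, c_im, pt_re, pt_im,
        abs2_le] <;> simp only [face0, face1, face2, face3] <;> push_cast <;>
        refine ⟨?_, ?_, ?_, ?_⟩ <;> linarith
    exact key r
  calc δ * _ ≤ δ * 1 := mul_le_mul_of_nonneg_left h1 hδ.le
    _ = δ := mul_one δ

/-- The squares with a margin are deep. -/
theorem deep_mar (hδ : 0 < δ) {PE : Finset (ℤ × ℤ)}
    (mar : ∀ v ∈ PE, ∀ z ∈ Dsq δ v, ball z (8 * δ) ⊆ Om δ S) : DeepQ S ↑PE := by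
  intro u r h t'
  refine mem_of_cf hδ (mar _ h _ (zp_mem_Dsq hδ u r) ?_)
  rw [mem_ball]
  linarith [dist_cf hδ u t']

/-- The squares with a margin are not read. -/
theorem unread_mar (hδ : 0 < δ) {τ : ℕ} (hτ : τ ≤ len p k A) {PE : Finset (ℤ × ℤ)}
    (mar : ∀ v ∈ PE, ∀ z ∈ Dsq δ v, ball z (8 * δ) ⊆ (pl p k δ A '' Icc 0 τ)ᶜ) :
    ∀ i < τ, sq (ahead (run p k A i)) ∉ PE := by
  intro i hi h
  refine mar _ h _ (zp_mem_Dsq hδ (run p k A i).1 ((run p k A i).2 + 1))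
    (?_ : Fjord.Pp δ (run p k A i) ∈ _) ?_
  · rw [mem_ball, Fjord.Pp, dist_eq_norm, ← mul_sub, norm_mul, Complex.norm_real,
      Real.norm_of_nonneg hδ.le]
    have h1 : ‖cpt (1 / 4) (run p k A i) - pt (run p k A i).1‖ ≤ 1 := by
      unfold cpt
      rw [add_sub_cancel_left, norm_mul]
      have h2 : ‖E2.sq (run p k A i).2‖ ≤ 2 := by
        refine (Complex.norm_le_abs_re_add_abs_im _).trans ?_
        have key : ∀ r : Fin 4, |(E2.sq r).re| + |(E2.sq r).im| ≤ 2 := by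
          refine forall4 ?_ ?_ ?_ ?_ <;> simp [E2.sq] <;> norm_num
        exact key _
      have h3 : ‖(((1 / 4 : ℝ)) : ℂ)‖ = 1 / 4 := by
        rw [Complex.norm_real]
        norm_num
      rw [h3]
      linarith
    nlinarith
  · refine ⟨(i : ℝ) + 1, ⟨by positivity, ?_⟩, Fjord.pl_nat (by omega)⟩
    exact_mod_cast hi

/-- **CELL, left, for the data of `PosDefs`.** -/
theorem cell_left (w : Cfg) (hc : CDat δ p k S (H192.As S w) j ψ W t T R Rd cd Y) {m : ℕ}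
    {q : ZMod m → ℤ × ℤ} {PE : Finset (ℤ × ℤ)} (hq : IsPolygon q) (hPE : Encloses q PE)
    (mar : ∀ v ∈ PE, ∀ z ∈ Dsq δ v, ball z (8 * δ) ⊆ ψ '' loewnerDomain W t) {C : Set ℂ}
    (hCD : C ⊆ ψ '' loewnerDomain W t) (hC : IsPreconnected C)
    (hCP : ∀ z ∈ C, ∃ v, v ∉ PE ∧ z ∈ Dsq δ v)
    (hnear : ∃ z ∈ C, Near p k S (H192.As S w) δ (j - 1) z)
    (hRO : Disjoint C (RO p k S (H192.As S w) δ (j - 1))) {y : ℤ × ℤ}
    (hy : (y.1 + y.2) % 2 = 0) (hyC : zp δ y ∈ C) :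
    ∃ x ∈ H192.ro '' arcV p k (n - 1),
      Cn (StM 0) (FqC p k S (H192.As S w) δ ↑PE C (j - 1) ∪ eo p k S w (j - 1)) y x := by
  have hD : ψ '' loewnerDomain W t ⊆ Om δ S := by
    rw [hc.dom]
    exact diff_subset
  have hm1 : ∀ v ∈ PE, ∀ z ∈ Dsq δ v, ball z (8 * δ) ⊆ Om δ S := fun v hv z hz =>
    (mar v hv z hz).trans hD
  have hm2 : ∀ v ∈ PE, ∀ z ∈ Dsq δ v, ball z (8 * δ) ⊆ (pl p k δ (H192.As S w) ''
      Icc 0 ((j - 1 : ℕ) : ℝ))ᶜ := by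
    intro v hv z hz x hx hx'
    have h1 := mar v hv z hz hx
    rw [hc.dom] at h1
    exact h1.2 (image_mono (Icc_subset_Icc_right (by exact_mod_cast Nat.sub_le j 1)) hx')
  exact cellP_wired hc.hδ hc.hp hc.hS hc.hk hc.hkn w hc.hj hq hPE (deep_mar hc.hδ hm1)
    (unread_mar hc.hδ hc.hj hm2) hC (hCD.trans hD) hRO
    (fun z hz => by
      obtain ⟨v, h1, h2⟩ := hCP z hz
      exact ⟨v, h1, by rwa [← Dsq_eq hc.hδ]⟩) hy hyC hnear

/-- **CELL, right, for the data of `PosDefs`.** -/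
theorem cell_right (w : Cfg) (hc : CDat δ p k S (H192.As S w) j ψ W t T R Rd cd Y) {m : ℕ}
    {q : ZMod m → ℤ × ℤ} {PE : Finset (ℤ × ℤ)} (hq : IsPolygon q) (hPE : Encloses q PE)
    (mar : ∀ v ∈ PE, ∀ z ∈ Dsq δ v, ball z (8 * δ) ⊆ ψ '' loewnerDomain W t) {C : Set ℂ}
    (hCD : C ⊆ ψ '' loewnerDomain W t) (hC : IsPreconnected C)
    (hCP : ∀ z ∈ C, ∃ v, v ∉ PE ∧ z ∈ Dsq δ v)
    (hnear : ∃ z ∈ C, Near p k S (H192.As S w) δ (j - 1) z)
    (hLO : Disjoint C (LO p k (H192.As S w) δ (j - 1))) {y : ℤ × ℤ}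
    (hy : (y.1 + y.2) % 2 = 1) (hyC : zp δ y ∈ C) :
    ∃ i, sq (pe p i) ∈ FqC p k S (H192.As S w) δ ↑PE C (j - 1) ∪ ec p k S w (j - 1) ∧
      Cn (StQ p S) (FqC p k S (H192.As S w) δ ↑PE C (j - 1) ∪ ec p k S w (j - 1)) (dmo n y)
        (Sum.inr i) := by
  have hD : ψ '' loewnerDomain W t ⊆ Om δ S := by
    rw [hc.dom]
    exact diff_subset
  have hm1 : ∀ v ∈ PE, ∀ z ∈ Dsq δ v, ball z (8 * δ) ⊆ Om δ S := fun v hv z hz =>
    (mar v hv z hz).trans hD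
  have hm2 : ∀ v ∈ PE, ∀ z ∈ Dsq δ v, ball z (8 * δ) ⊆ (pl p k δ (H192.As S w) ''
      Icc 0 ((j - 1 : ℕ) : ℝ))ᶜ := by
    intro v hv z hz x hx hx'
    have h1 := mar v hv z hz hx
    rw [hc.dom] at h1
    exact h1.2 (image_mono (Icc_subset_Icc_right (by exact_mod_cast Nat.sub_le j 1)) hx')
  have ey : rf (rf' y) = y := rf_rf' (by rw [Int.not_even_iff]; exact hy)
  have hyS : rf' y ∈ S := by
    refine mem_of_cf hc.hδ ?_
    rw [← cf_zp, ey]
    exact hD (hCD hyC)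
  exact cellD_free hc.hδ hc.hp hc.hS hc.hk hc.hkn w hc.hj hq hPE (deep_mar hc.hδ hm1)
    (unread_mar hc.hδ hc.hj hm2) hC (hCD.trans hD) hLO
    (fun z hz => by
      obtain ⟨v, h1, h2⟩ := hCP z hz
      exact ⟨v, h1, by rwa [← Dsq_eq hc.hδ]⟩) hy hyS hyC hnear

theorem disj_RO {ε : ℝ} (hl : Lab δ p k S A j ψ W t ε) {C : Set ℂ}
    (hCD : C ⊆ ψ '' loewnerDomain W t) (h : ∀ z ∈ C, ¬ Pos ψ W t ε (Ici 0) z) :
    Disjoint C (RO p k S A δ (j - 1)) :=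
  Set.disjoint_left.2 fun z hz hz' => h z hz (hl.right z hz' (hCD hz))

theorem disj_LO {ε : ℝ} (hl : Lab δ p k S A j ψ W t ε) {C : Set ℂ}
    (hCD : C ⊆ ψ '' loewnerDomain W t) (h : ∀ z ∈ C, ¬ Pos ψ W t ε (Iic 0) z) :
    Disjoint C (LO p k A δ (j - 1)) :=
  Set.disjoint_left.2 fun z hz hz' => h z hz (hl.left z hz' (hCD hz))

end Vale.Agent.P167.H634
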