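import Vale.Agent.P167.H634.Core
import Vale.Agent.P167.H634.CellDefs

/-!
# P167, block CG3 (CELL): geometry of boxes, diamonds and faces, mesh `1`
-/

open Set Metric

namespace Vale.Agent.P167.H634

open Vale.Agent.P167.E6 Vale.Agent.P167.E2

theorem abs2_le {a b c : ℝ} : |a| + |b| ≤ c ↔ a + b ≤ c ∧ a - b ≤ c ∧ -a + b ≤ c ∧ -a - b ≤ c := by
  constructor
  · intro h
    have h1 := le_abs_self a
    have h2 := neg_le_abs a
    have h3 := le_abs_self b
    have h4 := neg_le_abs b
    refine ⟨?_, ?_, ?_, ?_⟩ <;> linarith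
  · rintro ⟨h1, h2, h3, h4⟩
    rcases abs_cases a with ⟨e, -⟩ | ⟨e, -⟩ <;> rcases abs_cases b with ⟨e', -⟩ | ⟨e', -⟩ <;>
      rw [e, e'] <;> linarith

/-- Closed face. -/
def CF (f : ℤ × ℤ) : Set ℂ :=
  {w | ((f.1 : ℝ) ≤ w.re ∧ w.re ≤ f.1 + 1) ∧ (f.2 : ℝ) ≤ w.im ∧ w.im ≤ f.2 + 1}

/-- Closed box around the centre of a face. -/
def F1 (ρ : ℝ) (f : ℤ × ℤ) : Set ℂ :=
  {w | |w.re - (f.1 + 1 / 2)| ≤ ρ ∧ |w.im - (f.2 + 1 / 2)| ≤ ρ}

/-- Closed box around the midpoint of an edge. -/
def E1 (ρ : ℝ) (u v : ℤ × ℤ) : Set ℂ :=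
  {w | |w.re - (u.1 + v.1) / 2| ≤ ρ ∧ |w.im - (u.2 + v.2) / 2| ≤ ρ}

/-- **The parts of a diamond.** -/
theorem D1_parts {u : ℤ × ℤ} (r : Fin 4) {w : ℂ} (h : w ∈ D1 u (u + dir r)) :
    w ∈ E1 (1 / 4) u (u + dir r) ∨ w ∈ B1 (1 / 4) u ∨ w ∈ B1 (1 / 4) (u + dir r) ∨
      w ∈ F1 (1 / 4) (face u r) ∨ w ∈ F1 (1 / 4) (face u (r - 1)) := by
  revert r
  refine forall4 ?_ ?_ ?_ ?_ <;> intro h <;>
    simp only [D1, E1, B1, F1, dir0, dir1, dir2, dir3, face0, face1, face2, face3, f4_0m, f4_1m,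
      f4_2m, f4_3m, Prod.fst_add, Prod.snd_add, mem_ofPred_eq, abs2_le, abs_le] at h ⊢ <;>
    push_cast at h ⊢
  · rcases le_or_gt (w.re - u.1) (1 / 4) with h1 | h1
    · right; left
      refine ⟨⟨?_, ?_⟩, ?_, ?_⟩ <;> linarith
    rcases le_or_gt (3 / 4) (w.re - u.1) with h2 | h2
    · right; right; left
      refine ⟨⟨?_, ?_⟩, ?_, ?_⟩ <;> linarith
    rcases le_or_gt (w.im - u.2) (1 / 4) with h3 | h3
    · rcases le_or_gt (-(1 / 4)) (w.im - u.2) with h4 | h4
      · left
        refine ⟨⟨?_, ?_⟩, ?_, ?_⟩ <;> linarith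
      · right; right; right; right
        refine ⟨⟨?_, ?_⟩, ?_, ?_⟩ <;> linarith
    · right; right; right; left
      refine ⟨⟨?_, ?_⟩, ?_, ?_⟩ <;> linarith
  · rcases le_or_gt (w.im - u.2) (1 / 4) with h1 | h1
    · right; left
      refine ⟨⟨?_, ?_⟩, ?_, ?_⟩ <;> linarith
    rcases le_or_gt (3 / 4) (w.im - u.2) with h2 | h2
    · right; right; left
      refine ⟨⟨?_, ?_⟩, ?_, ?_⟩ <;> linarith
    rcases le_or_gt (w.re - u.1) (1 / 4) with h3 | h3
    · rcases le_or_gt (-(1 / 4)) (w.re - u.1) with h4 | h4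
      · left
        refine ⟨⟨?_, ?_⟩, ?_, ?_⟩ <;> linarith
      · right; right; right; left
        refine ⟨⟨?_, ?_⟩, ?_, ?_⟩ <;> linarith
    · right; right; right; right
      refine ⟨⟨?_, ?_⟩, ?_, ?_⟩ <;> linarith
  · rcases le_or_gt (-(1 / 4)) (w.re - u.1) with h1 | h1
    · right; left
      refine ⟨⟨?_, ?_⟩, ?_, ?_⟩ <;> linarith
    rcases le_or_gt (w.re - u.1) (-(3 / 4)) with h2 | h2
    · right; right; left
      refine ⟨⟨?_, ?_⟩, ?_, ?_⟩ <;> linarith
    rcases le_or_gt (w.im - u.2) (1 / 4) with h3 | h3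
    · rcases le_or_gt (-(1 / 4)) (w.im - u.2) with h4 | h4
      · left
        refine ⟨⟨?_, ?_⟩, ?_, ?_⟩ <;> linarith
      · right; right; right; left
        refine ⟨⟨?_, ?_⟩, ?_, ?_⟩ <;> linarith
    · right; right; right; right
      refine ⟨⟨?_, ?_⟩, ?_, ?_⟩ <;> linarith
  · rcases le_or_gt (-(1 / 4)) (w.im - u.2) with h1 | h1
    · right; left
      refine ⟨⟨?_, ?_⟩, ?_, ?_⟩ <;> linarith
    rcases le_or_gt (w.im - u.2) (-(3 / 4)) with h2 | h2
    · right; right; left
      refine ⟨⟨?_, ?_⟩, ?_, ?_⟩ <;> linarith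
    rcases le_or_gt (w.re - u.1) (1 / 4) with h3 | h3
    · rcases le_or_gt (-(1 / 4)) (w.re - u.1) with h4 | h4
      · left
        refine ⟨⟨?_, ?_⟩, ?_, ?_⟩ <;> linarith
      · right; right; right; right
        refine ⟨⟨?_, ?_⟩, ?_, ?_⟩ <;> linarith
    · right; right; right; left
      refine ⟨⟨?_, ?_⟩, ?_, ?_⟩ <;> linarith

theorem F1_CF {f : ℤ × ℤ} {w : ℂ} (h : w ∈ F1 (1 / 4) f) : w ∈ CF f := by
  simp only [F1, CF, mem_ofPred_eq, abs_le] at h ⊢
  refine ⟨⟨?_, ?_⟩, ?_, ?_⟩ <;> linarith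

/-- A diamond is in the union of the two closed faces of the edge. -/
theorem D1_CF {u : ℤ × ℤ} (r : Fin 4) {w : ℂ} (h : w ∈ D1 u (u + dir r)) :
    w ∈ CF (face u r) ∨ w ∈ CF (face u (r - 1)) := by
  revert r
  refine forall4 ?_ ?_ ?_ ?_ <;> intro h <;>
    simp only [D1, CF, dir0, dir1, dir2, dir3, face0, face1, face2, face3, f4_0m, f4_1m,
      f4_2m, f4_3m, Prod.fst_add, Prod.snd_add, mem_ofPred_eq, abs2_le] at h ⊢ <;>
    push_cast at h ⊢
  · rcases le_or_gt 0 (w.im - u.2) with h1 | h1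
    · left; refine ⟨⟨?_, ?_⟩, ?_, ?_⟩ <;> linarith
    · right; refine ⟨⟨?_, ?_⟩, ?_, ?_⟩ <;> linarith
  · rcases le_or_gt 0 (w.re - u.1) with h1 | h1
    · right; refine ⟨⟨?_, ?_⟩, ?_, ?_⟩ <;> linarith
    · left; refine ⟨⟨?_, ?_⟩, ?_, ?_⟩ <;> linarith
  · rcases le_or_gt 0 (w.im - u.2) with h1 | h1
    · right; refine ⟨⟨?_, ?_⟩, ?_, ?_⟩ <;> linarith
    · left; refine ⟨⟨?_, ?_⟩, ?_, ?_⟩ <;> linarith
  · rcases le_or_gt 0 (w.re - u.1) with h1 | h1
    · left; refine ⟨⟨?_, ?_⟩, ?_, ?_⟩ <;> linarith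
    · right; refine ⟨⟨?_, ?_⟩, ?_, ?_⟩ <;> linarith

theorem int_le_of {a b : ℤ} (h : (a : ℝ) < b + 1) : a ≤ b := by
  have h2 : a < b + 1 := by exact_mod_cast h
  omega

theorem int_eq_of {a b : ℤ} (h : (a : ℝ) < b + 1) (h' : (b : ℝ) < a + 1) : a = b :=
  le_antisymm (int_le_of h) (int_le_of h')

/-- A point of a closed face which is in a diamond: the edge is a side of the face, or the point is an
end of the edge. -/
theorem side_or_vertex {u f : ℤ × ℤ} (r : Fin 4) {w : ℂ} (h : w ∈ D1 u (u + dir r))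
    (hf : w ∈ CF f) : f = face u r ∨ f = face u (r - 1) ∨ w = pt u ∨ w = pt (u + dir r) := by
  obtain ⟨⟨f1, f2⟩, f3, f4⟩ := hf
  revert r
  refine forall4 ?_ ?_ ?_ ?_ <;> intro h <;>
    simp only [D1, pt, dir0, dir1, dir2, dir3, face0, face1, face2, face3, f4_0m, f4_1m,
      f4_2m, f4_3m, Prod.fst_add, Prod.snd_add, mem_ofPred_eq, abs2_le] at h ⊢ <;>
    push_cast at h ⊢ <;> obtain ⟨h1, h2, h3, h4⟩ := h
  · rcases le_or_gt (w.re - u.1) 0 with a | a
    · right; right; left
      apply Complex.ext <;> simp only <;> linarith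
    rcases le_or_gt 1 (w.re - u.1) with b | b
    · right; right; right
      apply Complex.ext <;> simp only <;> linarith
    have e : f.1 = u.1 := int_eq_of (by linarith) (by linarith)
    rcases lt_trichotomy (w.im - u.2) 0 with c | c | c
    · right; left
      refine Prod.ext e ?_
      exact int_eq_of (by push_cast; linarith) (by push_cast; linarith)
    · rcases (by
        have k1 : f.2 ≤ u.2 := int_le_of (by linarith)
        have k2 : u.2 ≤ f.2 + 1 := by
          have : (u.2 : ℝ) ≤ f.2 + 1 := by linarith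
          exact_mod_cast this
        omega : f.2 = u.2 ∨ f.2 = u.2 - 1) with e' | e'
      · exact Or.inl (Prod.ext e e')
      · exact Or.inr (Or.inl (Prod.ext e e'))
    · left
      refine Prod.ext e ?_
      exact int_eq_of (by linarith) (by linarith)
  · rcases le_or_gt (w.im - u.2) 0 with a | a
    · right; right; left
      apply Complex.ext <;> simp only <;> linarith
    rcases le_or_gt 1 (w.im - u.2) with b | b
    · right; right; right
      apply Complex.ext <;> simp only <;> linarith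
    have e : f.2 = u.2 := int_eq_of (by linarith) (by linarith)
    rcases lt_trichotomy (w.re - u.1) 0 with c | c | c
    · left
      refine Prod.ext ?_ e
      exact int_eq_of (by push_cast; linarith) (by push_cast; linarith)
    · rcases (by
        have k1 : f.1 ≤ u.1 := int_le_of (by linarith)
        have k2 : u.1 ≤ f.1 + 1 := by
          have : (u.1 : ℝ) ≤ f.1 + 1 := by linarith
          exact_mod_cast this
        omega : f.1 = u.1 ∨ f.1 = u.1 - 1) with e' | e'
      · exact Or.inr (Or.inl (Prod.ext e' e))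
      · exact Or.inl (Prod.ext e' e)
    · right; left
      refine Prod.ext ?_ e
      exact int_eq_of (by linarith) (by linarith)
  · rcases le_or_gt 0 (w.re - u.1) with a | a
    · right; right; left
      apply Complex.ext <;> simp only <;> linarith
    rcases le_or_gt (w.re - u.1) (-1) with b | b
    · right; right; right
      apply Complex.ext <;> simp only <;> linarith
    have e : f.1 = u.1 - 1 := int_eq_of (by push_cast; linarith) (by push_cast; linarith)
    rcases lt_trichotomy (w.im - u.2) 0 with c | c | c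
    · left
      refine Prod.ext e ?_
      exact int_eq_of (by push_cast; linarith) (by push_cast; linarith)
    · rcases (by
        have k1 : f.2 ≤ u.2 := int_le_of (by linarith)
        have k2 : u.2 ≤ f.2 + 1 := by
          have : (u.2 : ℝ) ≤ f.2 + 1 := by linarith
          exact_mod_cast this
        omega : f.2 = u.2 ∨ f.2 = u.2 - 1) with e' | e'
      · exact Or.inr (Or.inl (Prod.ext e e'))
      · exact Or.inl (Prod.ext e e')
    · right; left
      refine Prod.ext e ?_
      exact int_eq_of (by linarith) (by linarith)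
  · rcases le_or_gt 0 (w.im - u.2) with a | a
    · right; right; left
      apply Complex.ext <;> simp only <;> linarith
    rcases le_or_gt (w.im - u.2) (-1) with b | b
    · right; right; right
      apply Complex.ext <;> simp only <;> linarith
    have e : f.2 = u.2 - 1 := int_eq_of (by push_cast; linarith) (by push_cast; linarith)
    rcases lt_trichotomy (w.re - u.1) 0 with c | c | c
    · right; left
      refine Prod.ext ?_ e
      exact int_eq_of (by push_cast; linarith) (by push_cast; linarith)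
    · rcases (by
        have k1 : f.1 ≤ u.1 := int_le_of (by linarith)
        have k2 : u.1 ≤ f.1 + 1 := by
          have : (u.1 : ℝ) ≤ f.1 + 1 := by linarith
          exact_mod_cast this
        omega : f.1 = u.1 ∨ f.1 = u.1 - 1) with e' | e'
      · exact Or.inl (Prod.ext e' e)
      · exact Or.inr (Or.inl (Prod.ext e' e))
    · left
      refine Prod.ext ?_ e
      exact int_eq_of (by linarith) (by linarith)

/-- A vertex in a closed face is a vertex of the face. -/
theorem vert_of_CF {v f : ℤ × ℤ} (h : pt v ∈ CF f) : ∃ t : Fin 4, f = face v t := by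
  obtain ⟨⟨h1, h2⟩, h3, h4⟩ := h
  simp only [pt] at h1 h2 h3 h4
  have a1 : f.1 ≤ v.1 := by exact_mod_cast h1
  have a2 : v.1 ≤ f.1 + 1 := by exact_mod_cast h2
  have a3 : f.2 ≤ v.2 := by exact_mod_cast h3
  have a4 : v.2 ≤ f.2 + 1 := by exact_mod_cast h4
  rcases (by omega : v.1 = f.1 ∨ v.1 = f.1 + 1) with e1 | e1 <;>
    rcases (by omega : v.2 = f.2 ∨ v.2 = f.2 + 1) with e2 | e2
  · exact ⟨0, by rw [face0]; apply Prod.ext <;> simp only <;> omega⟩
  · exact ⟨3, by rw [face3]; apply Prod.ext <;> simp only <;> omega⟩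
  · exact ⟨1, by rw [face1]; apply Prod.ext <;> simp only <;> omega⟩
  · exact ⟨2, by rw [face2]; apply Prod.ext <;> simp only <;> omega⟩

theorem pt_B1 (ρ : ℝ) (hρ : 0 ≤ ρ) (v : ℤ × ℤ) : pt v ∈ B1 ρ v := by
  simp only [B1, pt, mem_ofPred_eq, sub_self, abs_zero]
  exact ⟨hρ, hρ⟩

variable {S : Finset (ℤ × ℤ)}

/-- **The points of the domain in an exterior face.** -/
theorem outer_cases {w : ℂ} (hw : w ∈ O1 (S : Set (ℤ × ℤ))) {f : ℤ × ℤ} (hf : w ∈ CF f)
    (hfS : f ∉ S) : (∃ v ∈ verts S, w ∈ B1 (3 / 8) v) ∨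
      ∃ v r, face v r ∈ S ∧ face v (r - 1) = f ∧ w ∈ D1 v (v + dir r) := by
  obtain ⟨g, hg, g1, g2, g3, g4⟩ := hw
  obtain ⟨⟨f1, f2⟩, f3, f4⟩ := hf
  have hg' : g ∈ S := hg
  have a1 : g.1 ≤ f.1 + 1 := int_le_of (by push_cast; linarith)
  have a2 : f.1 ≤ g.1 + 1 := int_le_of (by push_cast; linarith)
  have a3 : g.2 ≤ f.2 + 1 := int_le_of (by push_cast; linarith)
  have a4 : f.2 ≤ g.2 + 1 := int_le_of (by push_cast; linarith)
  have hv : ∀ v : ℤ × ℤ, ∀ t : Fin 4, face v t = g → v ∈ verts S := fun v t h =>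
    mem_verts.2 ⟨t, h ▸ hg'⟩
  have b1 : ∀ v : ℤ × ℤ, (∃ t : Fin 4, face v t = g) → |w.re - v.1| ≤ 3 / 8 →
      |w.im - v.2| ≤ 3 / 8 → (∃ v ∈ verts S, w ∈ B1 (3 / 8) v) ∨
      ∃ v r, face v r ∈ S ∧ face v (r - 1) = f ∧ w ∈ D1 v (v + dir r) :=
    fun v ⟨t, h⟩ h1 h2 => Or.inl ⟨v, hv v t h, h1, h2⟩
  rcases (by omega : g.1 = f.1 - 1 ∨ g.1 = f.1 ∨ g.1 = f.1 + 1) with e1 | e1 | e1 <;>
    rcases (by omega : g.2 = f.2 - 1 ∨ g.2 = f.2 ∨ g.2 = f.2 + 1) with e2 | e2 | e2
  all_goals
    have e1' := congrArg (Int.cast : ℤ → ℝ) e1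
    have e2' := congrArg (Int.cast : ℤ → ℝ) e2
    push_cast at e1' e2'
  · refine b1 f ⟨2, by rw [face2]; apply Prod.ext <;> simp only <;> omega⟩ ?_ ?_ <;>
      rw [abs_le] <;> constructor <;> linarith
  · -- the face on the left
    rcases le_or_gt (w.im - f.2) (3 / 8) with c | c
    · refine b1 f ⟨1, by rw [face1]; apply Prod.ext <;> simp only <;> omega⟩ ?_ ?_ <;>
        rw [abs_le] <;> constructor <;> linarith
    rcases le_or_gt (5 / 8) (w.im - f.2) with d | d
    · refine b1 (f + (0, 1)) ⟨2, by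
        rw [face2]; apply Prod.ext <;> simp only [Prod.fst_add, Prod.snd_add] <;> omega⟩ ?_ ?_ <;>
        rw [abs_le] <;> simp only [Prod.fst_add, Prod.snd_add] <;> push_cast <;>
        constructor <;> linarith
    · right
      refine ⟨f, 1, ?_, ?_, ?_⟩
      · rw [face1, ← e1]
        have : (g.1, f.2) = g := Prod.ext rfl e2.symm
        rw [this]; exact hg'
      · rw [f4_1m, face0]
      · simp only [D1, dir1, Prod.fst_add, Prod.snd_add, mem_ofPred_eq, abs2_le]
        push_cast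
        refine ⟨?_, ?_, ?_, ?_⟩ <;> linarith
  · refine b1 (f + (0, 1)) ⟨1, by
      rw [face1]; apply Prod.ext <;> simp only [Prod.fst_add, Prod.snd_add] <;> omega⟩ ?_ ?_ <;>
      rw [abs_le] <;> simp only [Prod.fst_add, Prod.snd_add] <;> push_cast <;>
      constructor <;> linarith
  · -- the face below
    rcases le_or_gt (w.re - f.1) (3 / 8) with c | c
    · refine b1 f ⟨3, by rw [face3]; apply Prod.ext <;> simp only <;> omega⟩ ?_ ?_ <;>
        rw [abs_le] <;> constructor <;> linarith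
    rcases le_or_gt (5 / 8) (w.re - f.1) with d | d
    · refine b1 (f + (1, 0)) ⟨2, by
        rw [face2]; apply Prod.ext <;> simp only [Prod.fst_add, Prod.snd_add] <;> omega⟩ ?_ ?_ <;>
        rw [abs_le] <;> simp only [Prod.fst_add, Prod.snd_add] <;> push_cast <;>
        constructor <;> linarith
    · right
      refine ⟨f + (1, 0), 2, ?_, ?_, ?_⟩
      · rw [face2]
        have : ((f + (1, 0)).1 - 1, (f + (1, 0)).2 - 1) = g := by
          apply Prod.ext <;> simp only [Prod.fst_add, Prod.snd_add] <;> omega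
        rw [this]; exact hg'
      · rw [f4_2m, face1]
        apply Prod.ext <;> simp
      · simp only [D1, dir2, Prod.fst_add, Prod.snd_add, mem_ofPred_eq, abs2_le]
        push_cast
        refine ⟨?_, ?_, ?_, ?_⟩ <;> linarith
  · exact absurd (by rw [show f = g from Prod.ext e1.symm e2.symm]; exact hg') hfS
  · -- the face above
    rcases le_or_gt (w.re - f.1) (3 / 8) with c | c
    · refine b1 (f + (0, 1)) ⟨0, by
        rw [face0]; apply Prod.ext <;> simp only [Prod.fst_add, Prod.snd_add] <;> omega⟩ ?_ ?_ <;>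
        rw [abs_le] <;> simp only [Prod.fst_add, Prod.snd_add] <;> push_cast <;>
        constructor <;> linarith
    rcases le_or_gt (5 / 8) (w.re - f.1) with d | d
    · refine b1 (f + (1, 1)) ⟨1, by
        rw [face1]; apply Prod.ext <;> simp only [Prod.fst_add, Prod.snd_add] <;> omega⟩ ?_ ?_ <;>
        rw [abs_le] <;> simp only [Prod.fst_add, Prod.snd_add] <;> push_cast <;>
        constructor <;> linarith
    · right
      refine ⟨f + (0, 1), 0, ?_, ?_, ?_⟩
      · rw [face0]
        have : ((f + (0, 1)).1, (f + (0, 1)).2) = g := by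
          apply Prod.ext <;> simp only [Prod.fst_add, Prod.snd_add] <;> omega
        rw [this]; exact hg'
      · rw [f4_0m, face3]
        apply Prod.ext <;> simp
      · simp only [D1, dir0, Prod.fst_add, Prod.snd_add, mem_ofPred_eq, abs2_le]
        push_cast
        refine ⟨?_, ?_, ?_, ?_⟩ <;> linarith
  · refine b1 (f + (1, 0)) ⟨3, by
      rw [face3]; apply Prod.ext <;> simp only [Prod.fst_add, Prod.snd_add] <;> omega⟩ ?_ ?_ <;>
      rw [abs_le] <;> simp only [Prod.fst_add, Prod.snd_add] <;> push_cast <;>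
      constructor <;> linarith
  · -- the face on the right
    rcases le_or_gt (w.im - f.2) (3 / 8) with c | c
    · refine b1 (f + (1, 0)) ⟨0, by
        rw [face0]; apply Prod.ext <;> simp only [Prod.fst_add, Prod.snd_add] <;> omega⟩ ?_ ?_ <;>
        rw [abs_le] <;> simp only [Prod.fst_add, Prod.snd_add] <;> push_cast <;>
        constructor <;> linarith
    rcases le_or_gt (5 / 8) (w.im - f.2) with d | d
    · refine b1 (f + (1, 1)) ⟨3, by
        rw [face3]; apply Prod.ext <;> simp only [Prod.fst_add, Prod.snd_add] <;> omega⟩ ?_ ?_ <;>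
        rw [abs_le] <;> simp only [Prod.fst_add, Prod.snd_add] <;> push_cast <;>
        constructor <;> linarith
    · right
      refine ⟨f + (1, 1), 3, ?_, ?_, ?_⟩
      · rw [face3]
        have : ((f + (1, 1)).1, (f + (1, 1)).2 - 1) = g := by
          apply Prod.ext <;> simp only [Prod.fst_add, Prod.snd_add] <;> omega
        rw [this]; exact hg'
      · rw [f4_3m, face2]
        apply Prod.ext <;> simp
      · simp only [D1, dir3, Prod.fst_add, Prod.snd_add, mem_ofPred_eq, abs2_le]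
        push_cast
        refine ⟨?_, ?_, ?_, ?_⟩ <;> linarith
  · refine b1 (f + (1, 1)) ⟨0, by
      rw [face0]; apply Prod.ext <;> simp only [Prod.fst_add, Prod.snd_add] <;> omega⟩ ?_ ?_ <;>
      rw [abs_le] <;> simp only [Prod.fst_add, Prod.snd_add] <;> push_cast <;>
      constructor <;> linarith

end Vale.Agent.P167.H634
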