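import Vale.Agent.P167.H634.CellDefs
import Vale.Agent.P167.H634.Geo1
import Vale.Agent.P167.H192.Dict2

/-!
# P167, block CG3 (CELL): diamonds as unit squares, `Avo` from enclosed polygons of squares
-/

open Set Metric

namespace Vale.Agent.P167.H634

open Vale.Agent.P167.E6 Vale.Agent.P167.E2
open Vale.Agent.P167.H192 (ro rf)

/-! ### Squares around sites -/

theorem sq_edge (v : ℤ × ℤ) (r : Fin 4) : H192.sq s(v, v + dir r) = face (ro v) r := by
  have key : ∀ r : Fin 4, H192.sq s(v, v + dir r) = face (ro v) r := by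
    refine forall4 ?_ ?_ ?_ ?_ <;>
      simp only [H192.sq_mk, dir0, dir1, dir2, dir3, face0, face1, face2, face3, H192.ro,
        Prod.fst_add, Prod.snd_add, Prod.mk.injEq] <;> omega
  exact key r

/-- The corners of a face. -/
def co (f : ℤ × ℤ) (r : Fin 4) : ℤ × ℤ := f + ![(0, 0), (1, 0), (1, 1), (0, 1)] r

theorem co_add (f : ℤ × ℤ) (r : Fin 4) : co f (r + 1) = co f r + dir r := by
  have key : ∀ r : Fin 4, co f (r + 1) = co f r + dir r := by
    refine forall4 ?_ ?_ ?_ ?_ <;> unfold co <;> apply Prod.ext <;> simp [dir]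
  exact key r

theorem sq_side (f : ℤ × ℤ) (r : Fin 4) : H192.sq s(co f r, co f (r + 1)) =
    face (rf f) (r + 3) := by
  rw [co_add, sq_edge]
  have key : ∀ r : Fin 4, face (ro (co f r)) r = face (rf f) (r + 3) := by
    refine forall4 ?_ ?_ ?_ ?_
    · rw [f4_03, face0, face3]
      simp only [co, H192.ro, H192.rf, Matrix.cons_val_zero, Prod.fst_add, Prod.snd_add,
        Prod.mk.injEq]
      omega
    · rw [f4_13, face1, face0]
      simp only [co, H192.ro, H192.rf, Matrix.cons_val_one, Matrix.cons_val_zero, Prod.fst_add,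
        Prod.snd_add, Prod.mk.injEq]
      omega
    · rw [f4_23, face2, face1]
      show ((f.1 + 1 - (f.2 + 1) - 1, f.1 + 1 + (f.2 + 1) - 1) : ℤ × ℤ) = _
      simp only [H192.rf, Prod.mk.injEq]
      omega
    · rw [f4_33, face3, face2]
      show ((f.1 + 0 - (f.2 + 1), f.1 + 0 + (f.2 + 1) - 1) : ℤ × ℤ) = _
      simp only [H192.rf, Prod.mk.injEq]
      omega
  exact key r

/-! ### Diamonds are squares -/

/-- Closed unit square, in the rotated coordinates. -/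
def Sq1 (v : ℤ × ℤ) : Set ℂ :=
  {z | ((v.1 : ℝ) ≤ z.re - z.im ∧ z.re - z.im ≤ v.1 + 1) ∧
    (v.2 : ℝ) ≤ z.re + z.im ∧ z.re + z.im ≤ v.2 + 1}

theorem D1_sq (u : ℤ × ℤ) (r : Fin 4) : D1 u (u + dir r) = Sq1 (H192.sq s(u, u + dir r)) := by
  rw [sq_edge]
  ext z
  have key : ∀ r : Fin 4, z ∈ D1 u (u + dir r) ↔ z ∈ Sq1 (face (ro u) r) := by
    refine forall4 ?_ ?_ ?_ ?_ <;>
      simp only [D1, Sq1, dir0, dir1, dir2, dir3, face0, face1, face2, face3, H192.ro,
        Prod.fst_add, Prod.snd_add, mem_ofPred_eq, abs2_le] <;> push_cast <;>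
      constructor <;> rintro h
    all_goals
      first
      | (obtain ⟨h1, h2, h3, h4⟩ := h
         refine ⟨⟨?_, ?_⟩, ?_, ?_⟩ <;> linarith)
      | (obtain ⟨⟨h1, h2⟩, h3, h4⟩ := h
         refine ⟨?_, ?_, ?_, ?_⟩ <;> linarith)
  exact key r

/-- Closed square of mesh `δ`. -/
def SqD (δ : ℝ) (v : ℤ × ℤ) : Set ℂ := {z | z / (δ : ℂ) ∈ Sq1 v}

theorem Dm_sq {δ : ℝ} (hδ : 0 < δ) (u : ℤ × ℤ) (r : Fin 4) :
    Dm δ u (u + dir r) = SqD δ (H192.sq s(u, u + dir r)) := by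
  have hδ' : (δ : ℂ) ≠ 0 := by exact_mod_cast hδ.ne'
  ext z
  show _ ↔ z / (δ : ℂ) ∈ Sq1 _
  rw [← D1_sq]
  have e : z = (δ : ℂ) * (z / δ) := (mul_div_cancel₀ _ hδ').symm
  constructor
  · intro h
    rw [e] at h
    unfold Dm at h
    simp only [mem_ofPred_eq, Complex.re_ofReal_mul, Complex.im_ofReal_mul] at h
    rw [← mul_sub, ← mul_sub, abs_mul, abs_mul, abs_of_pos hδ, ← mul_add] at h
    unfold D1
    simp only [mem_ofPred_eq]
    exact le_of_mul_le_mul_left (by linarith) hδ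
  · intro h
    rw [e]
    unfold Dm
    simp only [mem_ofPred_eq, Complex.re_ofReal_mul, Complex.im_ofReal_mul]
    rw [← mul_sub, ← mul_sub, abs_mul, abs_mul, abs_of_pos hδ, ← mul_add]
    have := mul_le_mul_of_nonneg_left (show _ ≤ _ from h) hδ.le
    linarith

/-- Every real number has a neighbourhood whose points are only in the unit intervals which contain
the number. -/
theorem exists_nbhd (x : ℝ) : ∃ ε > 0, ∀ y : ℝ, |y - x| < ε → ∀ m : ℤ, (m : ℝ) ≤ y → y ≤ m + 1 →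
    (m : ℝ) ≤ x ∧ x ≤ m + 1 := by
  by_cases hx : (⌊x⌋ : ℝ) = x
  · refine ⟨1, one_pos, fun y hy m h1 h2 => ?_⟩
    rw [abs_lt, ← hx] at hy
    have a1 : m ≤ ⌊x⌋ := int_le_of (by linarith)
    have a2 : ⌊x⌋ ≤ m + 1 := int_le_of (by push_cast; linarith)
    rw [← hx]
    exact ⟨by exact_mod_cast a1, by exact_mod_cast a2⟩
  · have h1 : (⌊x⌋ : ℝ) < x := lt_of_le_of_ne (Int.floor_le x) hx
    have h2 := Int.lt_floor_add_one x
    refine ⟨min (x - ⌊x⌋) (⌊x⌋ + 1 - x), lt_min (by linarith) (by linarith),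
      fun y hy m h3 h4 => ?_⟩
    rw [abs_lt, neg_lt, lt_min_iff, lt_min_iff] at hy
    have e : m = ⌊x⌋ := int_eq_of (by linarith [hy.2.2]) (by linarith [hy.1.1])
    rw [e]
    exact ⟨h1.le, h2.le⟩

/-- A point which is not in the interior of a union of squares is in a square which is not in the
family. -/
theorem exists_sq {δ : ℝ} (hδ : 0 < δ) {D : Set (ℤ × ℤ)} {z : ℂ}
    (h : z ∉ interior {w | ∃ v ∈ D, w ∈ SqD δ v}) : ∃ v, v ∉ D ∧ z ∈ SqD δ v := by
  by_contra hcon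
  push Not at hcon
  apply h
  have hδ' : (δ : ℂ) ≠ 0 := by exact_mod_cast hδ.ne'
  set x : ℂ := z / δ with hx
  obtain ⟨ε₁, hε₁, h1⟩ := exists_nbhd (x.re - x.im)
  obtain ⟨ε₂, hε₂, h2⟩ := exists_nbhd (x.re + x.im)
  rw [mem_interior_iff_mem_nhds, Metric.mem_nhds_iff]
  refine ⟨δ * (min ε₁ ε₂ / 2), by positivity, fun w hw => ?_⟩
  set y : ℂ := w / δ with hy
  have hd : dist y x < min ε₁ ε₂ / 2 := by
    rw [mem_ball, dist_eq_norm] at hw
    rw [dist_eq_norm, hy, hx, ← sub_div, norm_div, Complex.norm_real, Real.norm_of_nonneg hδ.le,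
      div_lt_iff₀ hδ, mul_comm]
    exact hw
  rw [dist_eq_norm] at hd
  have a1 := (Complex.abs_re_le_norm (y - x)).trans_lt hd
  have a2 := (Complex.abs_im_le_norm (y - x)).trans_lt hd
  rw [Complex.sub_re] at a1
  rw [Complex.sub_im] at a2
  have m1 := min_le_left ε₁ ε₂
  have m2 := min_le_right ε₁ ε₂
  set v : ℤ × ℤ := (⌊y.re - y.im⌋, ⌊y.re + y.im⌋) with hv
  have b1 : |(y.re - y.im) - (x.re - x.im)| < ε₁ := by
    rw [abs_lt] at a1 a2 ⊢
    constructor <;> linarith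
  have b2 : |(y.re + y.im) - (x.re + x.im)| < ε₂ := by
    rw [abs_lt] at a1 a2 ⊢
    constructor <;> linarith
  have c1 := h1 _ b1 v.1 (Int.floor_le _) (Int.lt_floor_add_one _).le
  have c2 := h2 _ b2 v.2 (Int.floor_le _) (Int.lt_floor_add_one _).le
  have hvD : v ∈ D := by
    by_contra hvD
    exact hcon v hvD ⟨c1, c2⟩
  exact ⟨v, hvD, ⟨⟨Int.floor_le _, (Int.lt_floor_add_one _).le⟩, Int.floor_le _,
    (Int.lt_floor_add_one _).le⟩⟩

/-- The edge of a square. -/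
theorem exists_edge (v : ℤ × ℤ) : ∃ u r, H192.sq s(u, u + dir r) = v := by
  obtain ⟨u, r, h⟩ := H192.isEdge_ed v
  exact ⟨u, r, by rw [← h, H192.sq_ed]⟩

/-! ### Contiguity -/

/-- At every site the squares outside of an enclosed polygon are contiguous. -/
theorem contig {n : ℕ} {q : ZMod n → ℤ × ℤ} {D : Finset (ℤ × ℤ)} (hq : IsPolygon q)
    (hD : Encloses q D) (x : ℤ × ℤ) (r : Fin 4) (h1 : face x r ∉ D) (h2 : face x (r + 2) ∉ D) :
    face x (r + 1) ∉ D ∨ face x (r + 3) ∉ D := by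
  by_contra hcon
  push Not at hcon
  obtain ⟨h3, h4⟩ := hcon
  have e1 : ∀ r : Fin 4, r + 3 - 1 = r + 2 := by decide
  obtain ⟨i, hi1, hi2⟩ := (hD x (r + 1)).2 ⟨h3, by rw [fin4_2]; exact h1⟩
  obtain ⟨j, hj1, hj2⟩ := (hD x (r + 3)).2 ⟨h4, by rw [e1]; exact h2⟩
  have hij : i = j := hq.2.1 (by rw [hi1, hj1])
  subst hij
  have e2 := add_dir_inj (hi2.symm.trans hj2)
  have e3 : ∀ r : Fin 4, r + 1 ≠ r + 3 := by decide
  exact e3 r e2

/-- **`Avo` from squares**: every point of `C` is in a closed square off `D`, and `C` is off the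
closed squares of `K`. -/
theorem avo_of_squares' {n : ℕ} {q : ZMod n → ℤ × ℤ} {D : Finset (ℤ × ℤ)} (hq : IsPolygon q)
    (hD : Encloses q D) {δ : ℝ} (hδ : 0 < δ) {K : Set (ℤ × ℤ)} {C : Set ℂ}
    (hCD : ∀ z ∈ C, ∃ v, v ∉ D ∧ z ∈ SqD δ v)
    (hCK : ∀ z ∈ C, ∀ v ∈ K, z ∉ SqD δ v) :
    Avo δ {e | H192.sq e ∈ (↑D ∪ K : Set (ℤ × ℤ))} C := by
  have hδ' : (δ : ℂ) ≠ 0 := by exact_mod_cast hδ.ne'
  -- the squares around a point of `C`
  have hmem : ∀ z ∈ C, ∀ v, z ∈ SqD δ v → (v ∈ (↑D ∪ K : Set (ℤ × ℤ)) ↔ v ∈ D) := by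
    intro z hz v hv
    constructor
    · rintro (h | h)
      · exact h
      · exact absurd hv (hCK z hz v h)
    · exact fun h => Or.inl h
  have hface : ∀ (x : ℤ × ℤ) (r : Fin 4) (z : ℂ), z / (δ : ℂ) = ⟨(x.1 + x.2) / 2, (x.2 - x.1) / 2⟩ →
      z ∈ SqD δ (face x r) := by
    intro x r z hz
    show z / (δ : ℂ) ∈ Sq1 _
    rw [hz]
    have key : ∀ r : Fin 4, (⟨((x.1 : ℝ) + x.2) / 2, ((x.2 : ℝ) - x.1) / 2⟩ : ℂ) ∈
        Sq1 (face x r) := by
      refine forall4 ?_ ?_ ?_ ?_ <;> simp only [Sq1, face0, face1, face2, face3, mem_ofPred_eq] <;>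
        push_cast <;> refine ⟨⟨?_, ?_⟩, ?_, ?_⟩ <;> linarith
    exact key r
  refine ⟨?_, ?_, ?_⟩
  · intro z hz
    obtain ⟨v, hv, hzv⟩ := hCD z hz
    obtain ⟨u, r, hur⟩ := exists_edge v
    refine ⟨u, r, ?_, ?_⟩
    · simp only [mem_ofPred_eq]
      rw [hur, hmem z hz v hzv]
      exact hv
    · rw [Dm_sq hδ, hur]
      exact hzv
  · intro f hf r h1 h2
    have hz : cf δ f / (δ : ℂ) = ⟨((rf f).1 + (rf f).2) / 2, ((rf f).2 - (rf f).1) / 2⟩ := by
      unfold cf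
      rw [mul_div_cancel_left₀ _ hδ']
      simp only [H192.rf]
      push_cast
      apply Complex.ext
      · simp [pt]
        ring
      · simp [pt]
        ring
    have hs : ∀ t : Fin 4, cf δ f ∈ SqD δ (face (rf f) t) := fun t => hface _ _ _ hz
    have hiff : ∀ t : Fin 4, (s(co f t, co f (t + 1)) ∈
        {e | H192.sq e ∈ (↑D ∪ K : Set (ℤ × ℤ))}) ↔ face (rf f) (t + 3) ∈ D := by
      intro t
      rw [mem_ofPred_eq, sq_side]
      exact hmem _ hf _ (hs _)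
    have g1 : face (rf f) (r + 3) ∉ D := fun h => h1 ((hiff r).2 h)
    have a2 : ∀ r : Fin 4, r + 2 + 1 = r + 3 := by decide
    have a3 : ∀ r : Fin 4, r + 2 + 3 = r + 3 + 2 := by decide
    have a4 : ∀ r : Fin 4, r + 3 + 1 = r := by decide
    have a5 : ∀ r : Fin 4, r + 1 + 1 = r + 2 := by decide
    have a6 : ∀ r : Fin 4, r + 1 + 3 = r + 3 + 1 := by decide
    have g2 : face (rf f) (r + 3 + 2) ∉ D := by
      intro h
      refine h2 ?_
      have := (hiff (r + 2)).2 (by rw [a3]; exact h)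
      rw [a2] at this
      exact this
    rcases contig hq hD (rf f) (r + 3) g1 g2 with h | h
    · left
      intro hin
      have := (hiff (r + 1)).1 (by rw [a5]; exact hin)
      rw [a6] at this
      exact h this
    · right
      intro hin
      have := (hiff (r + 3)).1 (by rw [a4]; exact hin)
      exact h this
  · intro v hv r h1 h2
    have hz : (δ : ℂ) * pt v / (δ : ℂ) =
        ⟨((ro v).1 + (ro v).2) / 2, ((ro v).2 - (ro v).1) / 2⟩ := by
      rw [mul_div_cancel_left₀ _ hδ']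
      simp only [H192.ro]
      push_cast
      apply Complex.ext
      · simp [pt]
      · simp [pt]
    have hs : ∀ t : Fin 4, (δ : ℂ) * pt v ∈ SqD δ (face (ro v) t) := fun t => hface _ _ _ hz
    have hiff : ∀ t : Fin 4, (s(v, v + dir t) ∈
        {e | H192.sq e ∈ (↑D ∪ K : Set (ℤ × ℤ))}) ↔ face (ro v) t ∈ D := by
      intro t
      rw [mem_ofPred_eq, sq_edge]
      exact hmem _ hv _ (hs _)
    rcases contig hq hD (ro v) r (fun h => h1 ((hiff r).2 h)) (fun h => h2 ((hiff _).2 h)) with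
      h | h
    · exact Or.inl fun hin => h ((hiff _).1 hin)
    · exact Or.inr fun hin => h ((hiff _).1 hin)

/-- **`Avo` from squares**: `C` is off the interior of the polygon `D` and off the closed squares of
`K`. -/
theorem avo_of_squares {n : ℕ} {q : ZMod n → ℤ × ℤ} {D : Finset (ℤ × ℤ)} (hq : IsPolygon q)
    (hD : Encloses q D) {δ : ℝ} (hδ : 0 < δ) {K : Set (ℤ × ℤ)} {C : Set ℂ}
    (hCD : ∀ z ∈ C, z ∉ interior {w | ∃ v ∈ D, w ∈ SqD δ v})
    (hCK : ∀ z ∈ C, ∀ v ∈ K, z ∉ SqD δ v) :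
    Avo δ {e | H192.sq e ∈ (↑D ∪ K : Set (ℤ × ℤ))} C :=
  avo_of_squares' hq hD hδ
    (fun z hz => exists_sq hδ (D := (↑D : Set (ℤ × ℤ))) (hCD z hz)) hCK

end Vale.Agent.P167.H634
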