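import Vale.Agent.P167.H634.SetgOf
import Vale.Agent.P167.H531.AsmDefs

/-!
# P167, block CONT-ASM: the collars and the explored classes (`S_setg`, `S_rfc`, `S_col1`, `S_col2`,
`S_col4` of `H531/AsmDefs`)
-/

open Set Metric

namespace Vale.Agent.P167.H634

open Vale.Agent.P167.E6 Vale.Agent.P167.E2 Vale.Agent.P167.H531
open Vale.Agent.P167.H161 (zp Rd eo ec)
open Vale.Agent.P167.H192 (rf rf' sq ed IsEdge ed_sq sq_ed ed_inj isEdge_ed even_ro odd_rf
  ro_inj ro_ro' rf_rf' rf'_rf sq_mk ro_dir isEdge_edges dq mem_dq)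
open Vale.Agent.P164 (loewnerDomain Zf)

/-- **[SETG]** -/
theorem s_setg : S_setg := fun _ hc hC hP hL hF => setg_of hc hP hC hL hF.kc

variable {n m : ℕ} {p : ZMod n → ℤ × ℤ} {k : ℕ} {S : Finset (ℤ × ℤ)}
  {A : Finset (Sym2 (ℤ × ℤ))} {δ : ℝ} {j : ℕ} {ψ : ℂ → ℂ} {W : ℝ → ℝ} {t : ℝ}
  {T R Rd' cd Y : ℝ} {q : ZMod m → ℤ × ℤ} {PE Kc Bb B : Finset (ℤ × ℤ)} {a l jf : ℕ}
  {ε h u rc cb : ℝ} {κ ω₀ : Cfg}

theorem eo_sub (hF : Fz p k S A j Kc κ ω₀) :
    eo p k S (H192.cfg (A : Set (Sym2 (ℤ × ℤ)))) (j - 1) ⊆ Gop p k S (KK p k S A j Kc Bb) ω₀ := by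
  rintro v ⟨h1, h2⟩
  have h3 : v ∈ Rd p k S A j := h1
  refine ⟨?_, ?_, Finset.mem_coe.2 (H161.Rd_subset j h3)⟩
  · show ω₀ v = true
    rw [hF.rd v h3]
    exact h2
  · exact Finset.mem_coe.2 (Finset.mem_union_left _ (Finset.mem_union_left _ h3))

theorem ec_sub (hF : Fz p k S A j Kc κ ω₀) :
    ec p k S (H192.cfg (A : Set (Sym2 (ℤ × ℤ)))) (j - 1) ⊆ Gcl p k S (KK p k S A j Kc Bb) ω₀ := by
  rintro v ⟨h1, h2⟩
  have h3 : v ∈ Rd p k S A j := h1
  refine ⟨?_, ?_, Finset.mem_coe.2 (H161.Rd_subset j h3)⟩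
  · show ¬ ω₀ v = true
    rw [hF.rd v h3, h2]
    exact Bool.false_ne_true
  · exact Finset.mem_coe.2 (Finset.mem_union_left _ (Finset.mem_union_left _ h3))

/-- The squares of `FqC` which are not in the cut and the box are in `QC`. -/
theorem FqC_sub (hδ : 0 < δ) (hA : A ⊆ edges S) {C : Set ℂ}
    (hK : ∀ v ∈ Kc ∪ Bb, Disjoint (Dsq δ v) C) :
    FqC p k S A δ ↑PE C (j - 1) ⊆ QC p k S A j Kc Bb δ PE C := by
  rintro v ⟨h1, h2, h3, h4⟩
  rw [← Dsq_eq hδ] at h4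
  refine ⟨⟨h1, ?_, h2⟩, h4⟩
  intro h5
  have h6 : ∀ v' ∈ Kc ∪ Bb, v' ≠ v := by
    rintro v' h6 rfl
    obtain ⟨z, hz1, hz2⟩ := h4
    exact Set.disjoint_left.1 (hK _ h6) hz1 hz2
  rcases Finset.mem_union.1 h5 with h5 | h5
  · rcases Finset.mem_union.1 h5 with h5 | h5
    · obtain ⟨-, i, hi, h7⟩ := (H161.mem_Rd hA).1 h5
      exact h3 i hi h7
    · exact h6 v (Finset.mem_union_left _ h5) rfl
  · exact h6 v (Finset.mem_union_right _ h5) rfl

/-- A free edge of the polygon which is before `jf` or the last one. -/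
theorem arcF0_of {i : ℕ} (hi : i < jf ∨ i = n - 1) (hn : n ≠ 0) :
    (Sum.inr (i : ZMod n) : (ℤ × ℤ) ⊕ ZMod n) ∈ arcF0 n jf := by
  rcases hi with hi | rfl
  · refine ⟨i + 1, hi, ?_⟩
    push_cast
    rw [add_sub_cancel_right]
  · refine ⟨0, Nat.zero_le _, ?_⟩
    rw [Nat.cast_sub (by omega)]
    simp

/-- The index of an edge of the polygon in the random squares. -/
theorem idx_cases (hn : n ≠ 0) {i : ZMod n} (h : sq (pe p i) ∈ dq p k S)
    (hp : IsPolygon p) : ∃ l : ℕ, l < n ∧ (l : ZMod n) = i ∧ (l < k ∨ l = n - 1) := by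
  obtain ⟨l, hl, rfl⟩ := H174.nat_of_zmod hn i
  refine ⟨l, hl, rfl, ?_⟩
  by_contra hcon
  push Not at hcon
  rw [mem_dq, pe_eq hp, ed_sq ⟨_, _, rfl⟩, ← pe_eq hp] at h
  exact h.2 ⟨l, hcon.1, by omega, rfl⟩

/-- A read edge of the polygon is in the free arc before the foot. -/
theorem read_idx (hc : CDat δ p k S A j ψ W t T R Rd' cd Y)
    (hun : ∀ i : ℕ, jf ≤ i → i < k → Unr p k A j i) {i : ZMod n}
    (h : sq (pe p i) ∈ Rd p k S A j) : (Sum.inr i : (ℤ × ℤ) ⊕ ZMod n) ∈ arcF0 n jf := by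
  have hn : n ≠ 0 := by have := hc.hkn; omega
  obtain ⟨h1, i', hi', h2⟩ := (H161.mem_Rd hc.hA).1 h
  obtain ⟨l, hl, rfl, h3⟩ := idx_cases hn h1 hc.hp
  refine arcF0_of ?_ hn
  rcases h3 with h3 | h3
  · left
    by_contra h4
    push Not at h4
    refine hun l h4 h3 i' hi' ?_
    have e1 := ed_sq (H192.isEdge_ahead (run p k A i'))
    rw [h2, pe_eq hc.hp, ed_sq ⟨_, _, rfl⟩, ← pe_eq hc.hp] at e1
    exact e1.symm
  · exact Or.inr h3

/-- The visited faces. -/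
theorem fc_free (hc : CDat δ p k S A j ψ W t T R Rd' cd Y)
    (hun : ∀ i : ℕ, jf ≤ i → i < k → Unr p k A j i) (hF : Fz p k S A j Kc κ ω₀) {i : ℕ}
    (hi : i ≤ j - 1) (hS : fc (run p k A i) ∈ S) :
    (Sum.inl (fc (run p k A i)) : (ℤ × ℤ) ⊕ ZMod n) ∈
      Kl (StQ p S) (Gcl p k S (KK p k S A j Kc Bb) ω₀) (arcF0 n jf) := by
  have h1 := visited_free (k := k) hc.hp hc.hS (H192.cfg (A : Set (Sym2 (ℤ × ℤ)))) i
    (by rw [H161.As_cfg hc.hA]; exact hS)
  rw [H161.As_cfg hc.hA] at h1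
  obtain ⟨i', h2, h3⟩ := h1
  have h4 := H161.ec_mono (p := p) (k := k) (S := S) (H192.cfg (A : Set (Sym2 (ℤ × ℤ)))) hi
  refine ⟨_, read_idx hc hun (h4 h2).1, h3.mono ?_⟩
  exact h4.trans (ec_sub hF)

/-- The visited vertices. -/
theorem ls_wired (hc : CDat δ p k S A j ψ W t T R Rd' cd Y) (hF : Fz p k S A j Kc κ ω₀) {i : ℕ}
    (hi : i ≤ j - 1) : H192.ro (run p k A i).1 ∈
      Kl (StM 0) (Gop p k S (KK p k S A j Kc Bb) ω₀) (H192.ro '' arcV p k (n - 1)) := by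
  have hkn := hc.hkn
  obtain ⟨i', g1, g2, g3⟩ := H161.left_wired (p := p) (S := S) (k := k) (by omega)
    (H192.cfg (A : Set (Sym2 (ℤ × ℤ)))) i
  obtain ⟨g4, -⟩ := pstep_cn (par_ro _) g3
  rw [H161.ls_sp, H161.As_cfg hc.hA] at g4
  refine ⟨_, ⟨_, ⟨i', g1, by omega, rfl⟩, rfl⟩, g4.mono ?_⟩
  exact (H161.eo_mono _ hi).trans (eo_sub hF)

/-- **[RFC]** -/
theorem s_rfc : S_rfc := by
  intro n p k S A δ j ψ W t T R Rd' cd Y Kc Bb jf κ ω₀ hj hc hjf hun hF
  have hn : n ≠ 0 := by have := hc.hkn; omega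
  refine ⟨?_, fun i hi hS => fc_free hc hun hF hi hS, ?_, fun i hi => ls_wired hc hF hi⟩
  · intro v hv hω a b hab
    obtain ⟨hD, i, hi, hvi⟩ := (H161.mem_Rd hc.hA).1 hv
    have he : ed v = ahead (run p k A i) := by rw [← hvi, ed_sq (H192.isEdge_ahead _)]
    have hcl : ahead (run p k A i) ∉ wiredOpen p k A := by
      rintro (h1 | h1)
      · have h2 := hF.rd v hv
        rw [hω] at h2
        have h3 : H192.cfg (A : Set (Sym2 (ℤ × ℤ))) v = true := by
          rw [H192.cfg_true, he]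
          exact h1
        rw [h3] at h2
        exact Bool.false_ne_true h2
      · rw [mem_dq, he] at hD
        exact hD.2 h1
    have hrun : run p k A (i + 1) = ((run p k A i).1, (run p k A i).2 + 1) := by
      rw [run_succ, next_closed hcl]
    have hfc : ∀ f : ℤ × ℤ, f ∈ S → (f = face (run p k A i).1 ((run p k A i).2 + 1) ∨
        f = face (run p k A i).1 (run p k A i).2) →
        (Sum.inl f : (ℤ × ℤ) ⊕ ZMod n) ∈
          Kl (StQ p S) (Gcl p k S (KK p k S A j Kc Bb) ω₀) (arcF0 n jf) := by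
      rintro f hf (rfl | rfl)
      · have h1 := fc_free (Bb := Bb) hc hun hF (i := i + 1) (by omega)
          (by rw [hrun]; exact hf)
        rw [hrun] at h1
        exact h1
      · exact fc_free hc hun hF (i := i) (by omega) hf
    rcases hab with ⟨w, r, h1, h2, h3, rfl, rfl⟩ | ⟨i', h1, rfl, rfl⟩ | ⟨i', h1, rfl, rfl⟩
    · refine hfc _ h2 ?_
      rw [he] at h1
      have h4 : s((run p k A i).1, (run p k A i).1 + dir ((run p k A i).2 + 1)) =
        s(w, w + dir r) := h1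
      rw [edge_eq_iff] at h4
      rcases h4 with ⟨h4, h5⟩ | ⟨h4, h5⟩
      · left
        rw [h4, h5]
      · right
        have e1 : face w r = face (w + dir r) (r + 1) := (face_left _ _).symm
        have e2 : (run p k A i).2 = r + 1 := by
          have e3 : ∀ x r : Fin 4, x + 1 = r + 2 → x = r + 1 := by decide
          exact e3 _ _ h5
        rw [e1, h4, e2]
    · refine hfc _ (fi_mem hc.hp hc.hS i') ?_
      rw [he, pe_eq hc.hp] at h1
      have h4 : s((run p k A i).1, (run p k A i).1 + dir ((run p k A i).2 + 1)) =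
        s(p i', p i' + dir (ro p i')) := h1
      rw [edge_eq_iff] at h4
      rcases h4 with ⟨h4, h5⟩ | ⟨h4, h5⟩
      · left
        rw [fi, h4, h5]
      · right
        have e1 : face (p i') (ro p i') = face (p i' + dir (ro p i')) (ro p i' + 1) :=
          (face_left _ _).symm
        have e2 : (run p k A i).2 = ro p i' + 1 := by
          have e3 : ∀ x r : Fin 4, x + 1 = r + 2 → x = r + 1 := by decide
          exact e3 _ _ h5
        rw [fi, e1, h4, e2]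
    · refine ⟨_, read_idx hc hun ?_, Cn.refl _ _⟩
      rw [← h1, sq_ed]
      exact hv
  · intro v hv hω x y hxy
    obtain ⟨hD, i, hi, hvi⟩ := (H161.mem_Rd hc.hA).1 hv
    have he : ed v = ahead (run p k A i) := by rw [← hvi, ed_sq (H192.isEdge_ahead _)]
    have hop : ahead (run p k A i) ∈ wiredOpen p k A := by
      have h2 := hF.rd v hv
      rw [hω] at h2
      have h3 := h2.symm
      rw [H192.cfg_true, he] at h3
      exact Or.inl h3
    have hrun : (run p k A (i + 1)).1 =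
        (run p k A i).1 + dir ((run p k A i).2 + 1) := by
      rw [run_succ, next_open hop]
    have h4 : StM 0 v (H192.ro (run p k A i).1)
        (H192.ro ((run p k A i).1 + dir ((run p k A i).2 + 1))) :=
      stE_stM ⟨by rw [he]; rfl, _, rfl⟩
    rcases (isSt_M 0).pair _ _ _ _ _ h4 hxy with ⟨h5, -⟩ | ⟨h5, -⟩
    · exact ⟨i, by omega, h5⟩
    · exact ⟨i + 1, by omega, by rw [hrun]; exact h5⟩

/-- **[COL1]** -/
theorem s_col1 : S_col1 := by
  intro n m p k S A δ j ψ W t T R Rd' cd Y q PE Kc Bb κ ω₀ C y hj hc hq hPE mar hF hCD hC hCP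
    hnear hK hRO hy hyC
  have hA := H161.As_cfg hc.hA
  obtain ⟨x, hx, h1⟩ := cell_left (H192.cfg (A : Set (Sym2 (ℤ × ℤ)))) (by rw [hA]; exact hc) hq hPE
    mar hCD hC hCP (by rw [hA]; exact hnear) (by rw [hA]; exact hRO) hy hyC
  rw [hA] at h1
  refine ⟨x, hx, (h1.symm (isSt_M 0)).mono ?_⟩
  exact union_subset_union (FqC_sub hc.hδ hc.hA hK) (eo_sub hF)

/-- **[COL2]** -/
theorem s_col2 : S_col2 := by
  intro n m p k S A δ j ψ W t T R Rd' cd Y q PE Kc Bb jf κ ω₀ C y hj hc hq hPE mar hjf hun hF hCD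
    hC hCP hnear hK hLO hy hyC hdis
  have hn : n ≠ 0 := by have := hc.hkn; omega
  have hA := H161.As_cfg hc.hA
  obtain ⟨i, hi, h1⟩ := cell_right (H192.cfg (A : Set (Sym2 (ℤ × ℤ)))) (by rw [hA]; exact hc) hq
    hPE mar hCD hC hCP (by rw [hA]; exact hnear) (by rw [hA]; exact hLO) hy hyC
  rw [hA] at h1 hi
  refine ⟨Sum.inr i, ?_, (h1.symm (isSt_Q hc.hp hc.hS)).mono ?_⟩
  · rcases hi with hi | hi
    · obtain ⟨l, hl, rfl, h3⟩ := idx_cases hn hi.1 hc.hp
      refine arcF0_of ?_ hn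
      rcases h3 with h3 | h3
      · left
        by_contra h4
        push Not at h4
        obtain ⟨z, hz1, hz2⟩ := hi.2.2.2
        rw [← Dsq_eq hc.hδ] at hz1
        exact Set.disjoint_left.1 (hdis l h4 h3) hz1 hz2
      · exact Or.inr h3
    · exact read_idx hc hun hi.1
  · exact union_subset_union (FqC_sub hc.hδ hc.hA hK) (ec_sub hF)

/-- **[COL4]** -/
theorem s_col4 : S_col4 := by
  intro n m p k S A δ j ψ W t T R Rd' cd Y q PE Kc Bb jf κ ω₀ C y hj hc hq hPE mar hjf hF hCD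
    hC hCP hnear hK hLO hy hyC hdis hfc
  have hn : n ≠ 0 := by have := hc.hkn; omega
  have hδ := hc.hδ
  have hD : ψ '' loewnerDomain W t ⊆ Om δ S := by
    rw [hc.dom]
    exact diff_subset
  have hm1 : ∀ v ∈ PE, ∀ z ∈ Dsq δ v, ball z (8 * δ) ⊆ Om δ S := fun v hv z hz =>
    (mar v hv z hz).trans hD
  have hm2 : ∀ v ∈ PE, ∀ z ∈ Dsq δ v, ball z (8 * δ) ⊆ (pl p k δ A ''
      Icc 0 ((j - 1 : ℕ) : ℝ))ᶜ := by
    intro v hv z hz x hx hx'
    have h1 := mar v hv z hz hx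
    rw [hc.dom] at h1
    exact h1.2 (image_mono (Icc_subset_Icc_right (by exact_mod_cast Nat.sub_le j 1)) hx')
  have ey : rf (rf' y) = y := rf_rf' (by rw [Int.not_even_iff]; exact hy)
  have hyS : rf' y ∈ S := by
    refine mem_of_cf hδ ?_
    rw [← cf_zp, ey]
    exact hD (hCD hyC)
  have h1 := cellD_sq hδ hc.hp hc.hS hc.hk hc.hkn hc.hA hc.hj hq hPE (deep_mar hδ hm1)
    (unread_mar hδ hc.hj hm2) hC (hCD.trans hD) hLO
    (fun z hz => by
      obtain ⟨v, h1, h2⟩ := hCP z hz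
      exact ⟨v, h1, by rwa [← Dsq_eq hδ]⟩) hy hyS hyC hnear
  rcases h1 with ⟨i, hi, h2, h3⟩ | ⟨i, h2, h3⟩
  · exfalso
    rcases Relation.ReflTransGen.cases_tail h3 with h4 | ⟨z, -, v, hv, hs⟩
    · have h5 : y = rf (fc (run p k A i)) := by
        rw [← ey]
        congr 1
        exact (Sum.inl.inj h4).symm
      refine Set.disjoint_left.1 (hfc i hi h2 y ?_) (zp_Dsq hδ (cnr_self y)) hyC
      rw [h5]
      exact ⟨Or.inl rfl, Or.inl rfl⟩
    · have h4 : Cnr v (rf (fc (run p k A i))) := cnr_of_stM' (stQ_pos hc.hp hs)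
      obtain ⟨z', hz1, hz2⟩ := hv.2.2.2
      rw [← Dsq_eq hδ] at hz1
      exact Set.disjoint_left.1 (hfc i hi h2 v h4) hz1 hz2
  · obtain ⟨l, hl, rfl, h4⟩ := idx_cases hn h2.1 hc.hp
    have hun : Unr p k A j l := by
      intro i' hi' h5
      exact h2.2.2.1 i' hi' (by rw [h5]; rfl)
    have h5 : ¬ (l < jf ∨ l = n - 1) := by
      intro h5
      obtain ⟨z', hz1, hz2⟩ := h2.2.2.2
      rw [← Dsq_eq hδ] at hz1
      exact Set.disjoint_left.1 (hdis l h5 hun) hz1 hz2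
    push Not at h5
    refine ⟨Sum.inr (l : ZMod n), ⟨l, h5.1, ?_, rfl⟩, (h3.symm (isSt_Q hc.hp hc.hS)).mono ?_⟩
    · rcases h4 with h4 | h4
      · exact h4
      · exact absurd h4 h5.2
    · exact (FqC_sub hδ hc.hA hK).trans subset_union_left

end Vale.Agent.P167.H634
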