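import Vale.Agent.P167.H634.Geo1
import Vale.Agent.P167.Fjord.Piece

/-!
# P167, block CG3 (CELL): the primal statement
-/

open Set Metric

namespace Vale.Agent.P167.H634

open Vale.Agent.P167.E6 Vale.Agent.P167.E2
open Vale.Agent.P167.Fjord (Wd rot adv)

variable {n : ℕ} {p : ZMod n → ℤ × ℤ} {S : Finset (ℤ × ℤ)} {k : ℕ} {A : Finset (Sym2 (ℤ × ℤ))}
  {δ : ℝ}

/-! ### Scaling -/

theorem mem_Bx (hδ : 0 < δ) {ρ x y : ℝ} {w : ℂ} :
    (δ : ℂ) * w ∈ Bx δ ρ x y ↔ |w.re - x| ≤ ρ ∧ |w.im - y| ≤ ρ := by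
  unfold Bx
  simp only [mem_ofPred_eq, Complex.re_ofReal_mul, Complex.im_ofReal_mul]
  rw [← mul_sub, ← mul_sub, abs_mul, abs_mul, abs_of_pos hδ]
  constructor
  · rintro ⟨h1, h2⟩
    exact ⟨le_of_mul_le_mul_left h1 hδ, le_of_mul_le_mul_left h2 hδ⟩
  · rintro ⟨h1, h2⟩
    exact ⟨mul_le_mul_of_nonneg_left h1 hδ.le, mul_le_mul_of_nonneg_left h2 hδ.le⟩

theorem mem_Dm (hδ : 0 < δ) {u v : ℤ × ℤ} {w : ℂ} : (δ : ℂ) * w ∈ Dm δ u v ↔ w ∈ D1 u v := by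
  unfold Dm D1
  simp only [mem_ofPred_eq, Complex.re_ofReal_mul, Complex.im_ofReal_mul]
  rw [← mul_sub, ← mul_sub, abs_mul, abs_mul, abs_of_pos hδ, ← mul_add]
  constructor
  · intro h
    exact le_of_mul_le_mul_left (by linarith) hδ
  · intro h
    have := mul_le_mul_of_nonneg_left h hδ.le
    linarith

theorem Dm_comm (δ : ℝ) (u v : ℤ × ℤ) : Dm δ u v = Dm δ v u := by
  unfold Dm
  simp only [add_comm]

theorem E1_comm (ρ : ℝ) (u v : ℤ × ℤ) : E1 ρ u v = E1 ρ v u := by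
  unfold E1
  simp only [add_comm]

/-- The centre of a cell of an exterior face is far from the domain. -/
theorem far_of_F1 (hδ : 0 < δ) {f : ℤ × ℤ} (hf : f ∉ S) {w : ℂ} (hw : w ∈ F1 (1 / 4) f) :
    ∀ w' ∈ region δ S, δ / 4 ≤ |((δ : ℂ) * w).re - w'.re| ∨
      δ / 4 ≤ |((δ : ℂ) * w).im - w'.im| := by
  rintro w' ⟨g, hg, g1, g2, g3, g4⟩
  obtain ⟨h1, h2⟩ := hw
  rw [abs_le] at h1 h2
  rw [Complex.re_ofReal_mul, Complex.im_ofReal_mul]
  have hne : g ≠ f := fun h => hf (h ▸ hg)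
  rcases lt_trichotomy g.1 f.1 with h | h | h
  · left
    have h3 : (g.1 : ℝ) + 1 ≤ f.1 := by exact_mod_cast h
    refine le_trans ?_ (le_abs_self _)
    nlinarith
  · rcases lt_trichotomy g.2 f.2 with h' | h' | h'
    · right
      have h3 : (g.2 : ℝ) + 1 ≤ f.2 := by exact_mod_cast h'
      refine le_trans ?_ (le_abs_self _)
      nlinarith
    · exact absurd (Prod.ext h h') hne
    · right
      have h3 : (f.2 : ℝ) + 1 ≤ g.2 := by exact_mod_cast h'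
      refine le_trans ?_ (neg_le_abs _)
      nlinarith
  · left
    have h3 : (f.1 : ℝ) + 1 ≤ g.1 := by exact_mod_cast h
    refine le_trans ?_ (neg_le_abs _)
    nlinarith

/-! ### Polygon -/

theorem f4a : ∀ r : Fin 4, r + 2 - 1 = r + 1 := by decide

theorem f4b : ∀ t : Fin 4, t + 1 + 2 - 1 = t + 1 + 1 := by decide

theorem poly_of_mixed (hp : IsPolygon p) (hS : Encloses p S) {u : ℤ × ℤ} {r : Fin 4}
    (he : s(u, u + dir r) ∈ edges S) (h : face u r ∉ S ∨ face u (r - 1) ∉ S) :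
    ∃ i : ℕ, i < n ∧ ((p i = u ∧ p (i + 1) = u + dir r) ∨ (p i = u + dir r ∧ p (i + 1) = u)) := by
  have hn : NeZero n := ⟨by have := hp.1; omega⟩
  have hor := (mem_edges r).1 he
  rcases h with h | h
  · have h2 : face u (r - 1) ∈ S := hor.resolve_left h
    obtain ⟨i, h3, h4⟩ := (hS (u + dir r) (r + 2)).2 ⟨by rw [face_right]; exact h2, by
      rw [f4a, face_left]; exact h⟩
    refine ⟨i.val, ZMod.val_lt i, Or.inr ⟨?_, ?_⟩⟩
    · rw [ZMod.natCast_zmod_val]; exact h3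
    · rw [ZMod.natCast_zmod_val, h4, dir_add_two']
  · have h2 : face u r ∈ S := hor.resolve_right h
    obtain ⟨i, h3, h4⟩ := (hS u r).2 ⟨h2, h⟩
    refine ⟨i.val, ZMod.val_lt i, Or.inl ⟨?_, ?_⟩⟩
    · rw [ZMod.natCast_zmod_val]; exact h3
    · rw [ZMod.natCast_zmod_val]; exact h4

theorem vert_of_mixed (hp : IsPolygon p) (hS : Encloses p S) {v : ℤ × ℤ} {t : Fin 4}
    (hv : v ∈ verts S) (h : face v t ∉ S) : ∃ i : ℕ, i < n ∧ p i = v := by
  have hn : NeZero n := ⟨by have := hp.1; omega⟩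
  obtain ⟨r, hr⟩ := mem_verts.1 hv
  obtain ⟨i, hi⟩ := exists_of_mixed hS hr h
  exact ⟨i.val, ZMod.val_lt i, by rw [ZMod.natCast_zmod_val]; exact hi⟩

theorem ends_verts {u : ℤ × ℤ} {r : Fin 4} (he : s(u, u + dir r) ∈ edges S) :
    u ∈ verts S ∧ u + dir r ∈ verts S := by
  rcases (mem_edges r).1 he with h1 | h1
  · exact ⟨mem_verts.2 ⟨_, h1⟩, mem_verts.2 ⟨r + 1, by rw [face_left]; exact h1⟩⟩
  · exact ⟨mem_verts.2 ⟨_, h1⟩, mem_verts.2 ⟨r + 2, by rw [face_right]; exact h1⟩⟩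

/-- The two faces of the edge ahead. -/
theorem ahead_faces {c : Medial} {u : ℤ × ℤ} {r : Fin 4} (h : ahead c = s(u, u + dir r)) :
    (face u r = fc (rot c) ∧ face u (r - 1) = fc c) ∨
      (face u r = fc c ∧ face u (r - 1) = fc (rot c)) := by
  obtain ⟨v, t⟩ := c
  unfold ahead at h
  simp only at h
  rw [Sym2.eq_iff] at h
  rcases h with ⟨h1, h2⟩ | ⟨h1, h2⟩
  · subst h1
    have e := add_dir_inj h2
    subst e
    left
    refine ⟨rfl, ?_⟩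
    rw [fin4_2]
    rfl
  · right
    have e : r = t + 1 + 2 := by
      apply add_dir_inj (v := u)
      rw [← h1, ← h2, dir_add_two']
    rw [← h2, e]
    refine ⟨?_, ?_⟩
    · rw [face_right, fin4_2]
      rfl
    · rw [f4b, face_left]
      rfl

/-! ### Good edges and the cover -/

/-- The good edges: in the domain, not in `Q`, not explored closed. -/
def Gd (p : ZMod n → ℤ × ℤ) (k : ℕ) (S : Finset (ℤ × ℤ)) (A : Finset (Sym2 (ℤ × ℤ)))
    (Q : Set (Sym2 (ℤ × ℤ))) (τ : ℕ) : Set (Sym2 (ℤ × ℤ)) :=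
  {e | e ∈ edges S ∧ e ∉ Q ∧ ∀ i < τ, ahead (run p k A i) = e → e ∈ wiredOpen p k A}

/-- The targets: visited or wired vertices. -/
def Tg (p : ZMod n → ℤ × ℤ) (k : ℕ) (A : Finset (Sym2 (ℤ × ℤ))) (τ : ℕ) (v : ℤ × ℤ) : Prop :=
  (∃ i ≤ τ, v = (run p k A i).1) ∨ ∃ i : ℕ, k ≤ i ∧ i < n ∧ v = p i

variable {Q : Set (Sym2 (ℤ × ℤ))} {τ : ℕ} {w : ℂ}

theorem run_rot {i : ℕ} (h : ahead (run p k A i) ∉ wiredOpen p k A) :
    run p k A (i + 1) = rot (run p k A i) := by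
  rw [run_succ, next_closed h]
  rfl

theorem run_adv {i : ℕ} (h : ahead (run p k A i) ∈ wiredOpen p k A) :
    run p k A (i + 1) = adv (run p k A i) := by
  rw [run_succ, next_open h]
  rfl

theorem B1_mono {ρ ρ' : ℝ} (h : ρ ≤ ρ') (v : ℤ × ℤ) : B1 ρ v ⊆ B1 ρ' v :=
  fun _ hz => ⟨hz.1.trans h, hz.2.trans h⟩

section

variable (hδ : 0 < δ) (hp : IsPolygon p) (hS : Encloses p S)
include hδ hp hS

/-- A point of the cell of a visited face near an explored closed edge is in `RO`. -/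
theorem RO_of_face {u : ℤ × ℤ} {r : Fin 4} (he : s(u, u + dir r) ∈ edges S)
    (hW : s(u, u + dir r) ∉ Wd p k) (hD : w ∈ D1 u (u + dir r)) {f : ℤ × ℤ}
    (hf : f = face u r ∨ f = face u (r - 1)) (hvis : ∃ j ≤ τ, f = fc (run p k A j))
    (hw : w ∈ F1 (1 / 4) f) : (δ : ℂ) * w ∈ RO p k S A δ τ := by
  obtain ⟨j, hj, hfj⟩ := hvis
  by_cases hfS : f ∈ S
  · refine Or.inl ⟨j, hj, hfj ▸ hfS, ?_⟩
    rw [← hfj]
    exact (mem_Bx hδ).2 hw
  · refine Or.inr (Or.inr ⟨far_of_F1 hδ hfS hw, Or.inr ?_⟩)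
    obtain ⟨i, hi, h | h⟩ := poly_of_mixed hp hS he (by
      rcases hf with rfl | rfl
      · exact Or.inl hfS
      · exact Or.inr hfS)
    · refine ⟨i, hi, ?_, ?_⟩
      · rw [h.1, h.2]; exact hW
      · rw [h.1, h.2]; exact (mem_Dm hδ).2 hD
    · refine ⟨i, hi, ?_, ?_⟩
      · rw [h.1, h.2, Sym2.eq_swap]; exact hW
      · rw [h.1, h.2, Dm_comm]; exact (mem_Dm hδ).2 hD

theorem covB (hRO : (δ : ℂ) * w ∉ RO p k S A δ τ) {u : ℤ × ℤ} {r : Fin 4}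
    (he : s(u, u + dir r) ∈ edges S) (hQ : s(u, u + dir r) ∉ Q) (hD : w ∈ D1 u (u + dir r)) :
    (∃ v ∈ verts S, w ∈ B1 (3 / 8) v) ∨
      (s(u, u + dir r) ∈ Gd p k S A Q τ ∧ w ∈ D1 u (u + dir r)) := by
  by_cases hG : ∀ i < τ, ahead (run p k A i) = s(u, u + dir r) → s(u, u + dir r) ∈ wiredOpen p k A
  · exact Or.inr ⟨⟨he, hQ, hG⟩, hD⟩
  push Not at hG
  obtain ⟨i, hi, hie, hcl⟩ := hG
  have hcl' : ahead (run p k A i) ∉ wiredOpen p k A := by rw [hie]; exact hcl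
  have hW : s(u, u + dir r) ∉ Wd p k := fun h => hcl (Or.inr h)
  have hvis : ∀ f, (f = face u r ∨ f = face u (r - 1)) → ∃ j ≤ τ, f = fc (run p k A j) := by
    intro f hf
    have h1 : fc (rot (run p k A i)) = fc (run p k A (i + 1)) := by rw [run_rot hcl']
    rcases ahead_faces hie with ⟨a, b⟩ | ⟨a, b⟩ <;> rcases hf with rfl | rfl
    · exact ⟨i + 1, hi, by rw [a, h1]⟩
    · exact ⟨i, hi.le, b⟩
    · exact ⟨i, hi.le, a⟩
    · exact ⟨i + 1, hi, by rw [b, h1]⟩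
  left
  rcases D1_parts r hD with h | h | h | h | h
  · exfalso
    refine hRO (Or.inr (Or.inl ⟨i, hi, by rw [hie]; exact he, hcl', ?_⟩))
    unfold ahead at hie
    rw [Sym2.eq_iff] at hie
    refine (mem_Bx hδ).2 ?_
    rcases hie with ⟨a, b⟩ | ⟨a, b⟩
    · rw [a] at b ⊢
      rw [b]
      exact h
    · rw [b, a]
      rw [E1_comm] at h
      exact h
  · exact ⟨u, (ends_verts he).1, B1_mono (by norm_num) _ h⟩
  · exact ⟨_, (ends_verts he).2, B1_mono (by norm_num) _ h⟩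
  · exact absurd (RO_of_face hδ hp hS he hW hD (Or.inl rfl) (hvis _ (Or.inl rfl)) h) hRO
  · exact absurd (RO_of_face hδ hp hS he hW hD (Or.inr rfl) (hvis _ (Or.inr rfl)) h) hRO

omit hδ hp hS in
theorem floor_CF (w : ℂ) : w ∈ CF (⌊w.re⌋, ⌊w.im⌋) :=
  ⟨⟨Int.floor_le _, (Int.lt_floor_add_one _).le⟩, Int.floor_le _, (Int.lt_floor_add_one _).le⟩

theorem cover (hQ : Deep S Q) (hO : w ∈ O1 (S : Set (ℤ × ℤ)))
    (hav : ∃ u r, s(u, u + dir r) ∉ Q ∧ w ∈ D1 u (u + dir r))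
    (hRO : (δ : ℂ) * w ∉ RO p k S A δ τ) : (∃ v ∈ verts S, w ∈ B1 (3 / 8) v) ∨
      ∃ u r, s(u, u + dir r) ∈ Gd p k S A Q τ ∧ w ∈ D1 u (u + dir r) := by
  have hf := floor_CF w
  set f : ℤ × ℤ := (⌊w.re⌋, ⌊w.im⌋) with hfdef
  have key : ∀ u r, s(u, u + dir r) ∈ edges S → s(u, u + dir r) ∉ Q → w ∈ D1 u (u + dir r) →
      (∃ v ∈ verts S, w ∈ B1 (3 / 8) v) ∨
      ∃ u r, s(u, u + dir r) ∈ Gd p k S A Q τ ∧ w ∈ D1 u (u + dir r) := by
    intro u r h1 h2 h3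
    rcases covB hδ hp hS hRO h1 h2 h3 with h | h
    · exact Or.inl h
    · exact Or.inr ⟨u, r, h⟩
  by_cases hfS : f ∈ S
  · obtain ⟨u, r, h1, h2⟩ := hav
    rcases side_or_vertex r h2 hf with h | h | h | h
    · exact key u r ((mem_edges r).2 (Or.inl (h ▸ hfS))) h1 h2
    · exact key u r ((mem_edges r).2 (Or.inr (h ▸ hfS))) h1 h2
    · left
      rw [h] at hf
      obtain ⟨t, ht⟩ := vert_of_CF hf
      exact ⟨u, mem_verts.2 ⟨t, ht ▸ hfS⟩, by rw [h]; exact pt_B1 _ (by norm_num) _⟩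
    · left
      rw [h] at hf
      obtain ⟨t, ht⟩ := vert_of_CF hf
      exact ⟨_, mem_verts.2 ⟨t, ht ▸ hfS⟩, by rw [h]; exact pt_B1 _ (by norm_num) _⟩
  · rcases outer_cases hO hf hfS with h | ⟨v, r, h1, h2, h3⟩
    · exact Or.inl h
    · refine key v r ((mem_edges r).2 (Or.inl h1)) (fun hin => ?_) h3
      have := hQ _ hin v (Sym2.mem_mk_left _ _) (r - 1)
      rw [h2] at this
      exact hfS this

end

end Vale.Agent.P167.H634
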