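import Vale.Agent.P167.H634.CellP

/-!
# P167, block CG3 (CELL): terminal analysis and the primal theorem
-/

open Set Metric

namespace Vale.Agent.P167.H634

open Vale.Agent.P167.E6 Vale.Agent.P167.E2
open Vale.Agent.P167.Fjord (Wd rot adv)

variable {n : ℕ} {p : ZMod n → ℤ × ℤ} {S : Finset (ℤ × ℤ)} {k : ℕ} {A : Finset (Sym2 (ℤ × ℤ))}
  {δ : ℝ} {Q : Set (Sym2 (ℤ × ℤ))} {τ : ℕ} {w : ℂ}

/-- The terminal cells. -/
def Tm (p : ZMod n → ℤ × ℤ) (k : ℕ) (S : Finset (ℤ × ℤ)) (A : Finset (Sym2 (ℤ × ℤ)))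
    (Q : Set (Sym2 (ℤ × ℤ))) (τ : ℕ) (w : ℂ) : Prop :=
  (∃ v ∈ verts S, Tg p k A τ v ∧ w ∈ B1 (3 / 8) v) ∨
    ∃ u r, s(u, u + dir r) ∈ Gd p k S A Q τ ∧ w ∈ D1 u (u + dir r) ∧ Tg p k A τ u ∧
      Tg p k A τ (u + dir r)

theorem B1_CF {v : ℤ × ℤ} (h : w ∈ B1 (3 / 8) v) : ∃ t : Fin 4, w ∈ CF (face v t) := by
  obtain ⟨h1, h2⟩ := h
  rw [abs_le] at h1 h2
  rcases le_or_gt 0 (w.re - v.1) with a | a <;> rcases le_or_gt 0 (w.im - v.2) with b | b
  · refine ⟨0, ?_⟩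
    simp only [CF, face0, mem_ofPred_eq]
    refine ⟨⟨?_, ?_⟩, ?_, ?_⟩ <;> push_cast <;> linarith
  · refine ⟨3, ?_⟩
    simp only [CF, face3, mem_ofPred_eq]
    refine ⟨⟨?_, ?_⟩, ?_, ?_⟩ <;> push_cast <;> linarith
  · refine ⟨1, ?_⟩
    simp only [CF, face1, mem_ofPred_eq]
    refine ⟨⟨?_, ?_⟩, ?_, ?_⟩ <;> push_cast <;> linarith
  · refine ⟨2, ?_⟩
    simp only [CF, face2, mem_ofPred_eq]
    refine ⟨⟨?_, ?_⟩, ?_, ?_⟩ <;> push_cast <;> linarith

theorem CF_region (hδ : 0 < δ) {f : ℤ × ℤ} (hf : f ∈ S) (h : w ∈ CF f) :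
    (δ : ℂ) * w ∈ region δ S := mem_region_of hδ.le hf h.1.1 h.1.2 h.2.1 h.2.2

theorem Wd_ends {e : Sym2 (ℤ × ℤ)} (h : e ∈ Wd p k) {v : ℤ × ℤ} (hv : v ∈ e) :
    Tg p k A τ v := by
  obtain ⟨i, h1, h2, rfl⟩ := h
  right
  rcases Sym2.mem_iff.1 hv with rfl | rfl
  · exact ⟨i, h1, by omega, rfl⟩
  · exact ⟨i + 1, by omega, h2, by push_cast; rfl⟩

/-- Near the boundary. -/
theorem term_far (hδ : 0 < δ) (hp : IsPolygon p) (hS : Encloses p S) (hQ : Deep S Q)
    (hO : w ∈ O1 (S : Set (ℤ × ℤ))) (hRO : (δ : ℂ) * w ∉ RO p k S A δ τ)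
    (hfar : ∀ w' ∈ region δ S, δ / 4 ≤ |((δ : ℂ) * w).re - w'.re| ∨
      δ / 4 ≤ |((δ : ℂ) * w).im - w'.im|) : Tm p k S A Q τ w := by
  have hfaces : ∀ f : ℤ × ℤ, w ∈ CF f → f ∉ S := by
    intro f hf hfS
    have h1 := hfar _ (CF_region hδ hfS hf)
    rw [sub_self, sub_self, abs_zero] at h1
    rcases h1 with h1 | h1 <;> linarith
  have hf := floor_CF w
  rcases outer_cases hO hf (hfaces _ hf) with ⟨v, hv, hw⟩ | ⟨v, r, h1, h2, h3⟩
  · left
    refine ⟨v, hv, ?_, hw⟩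
    obtain ⟨t, ht⟩ := B1_CF hw
    obtain ⟨i, hi, rfl⟩ := vert_of_mixed hp hS hv (hfaces _ ht)
    rcases lt_or_ge i k with h | h
    · exact absurd (Or.inr (Or.inr ⟨hfar, Or.inl ⟨i, h, (mem_Bx hδ).2 hw⟩⟩)) hRO
    · exact Or.inr ⟨i, h, hi, rfl⟩
  · right
    have h4 : face v (r - 1) ∉ S := by rw [h2]; exact hfaces _ hf
    have he : s(v, v + dir r) ∈ edges S := (mem_edges r).2 (Or.inl h1)
    by_cases hW : s(v, v + dir r) ∈ Wd p k
    · refine ⟨v, r, ⟨he, fun hin => h4 (hQ _ hin v (Sym2.mem_mk_left _ _) (r - 1)),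
        fun _ _ _ => Or.inr hW⟩, h3, Wd_ends hW (Sym2.mem_mk_left _ _),
        Wd_ends hW (Sym2.mem_mk_right _ _)⟩
    · exfalso
      obtain ⟨i, hi, h | h⟩ := poly_of_mixed hp hS he (Or.inr h4)
      · refine hRO (Or.inr (Or.inr ⟨hfar, Or.inr ⟨i, hi, ?_, ?_⟩⟩))
        · rw [h.1, h.2]; exact hW
        · rw [h.1, h.2]; exact (mem_Dm hδ).2 h3
      · refine hRO (Or.inr (Or.inr ⟨hfar, Or.inr ⟨i, hi, ?_, ?_⟩⟩))
        · rw [h.1, h.2, Sym2.eq_swap]; exact hW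
        · rw [h.1, h.2, Dm_comm]; exact (mem_Dm hδ).2 h3

/-- Near a point which is not in the domain. -/
theorem term_front (hδ : 0 < δ) (hp : IsPolygon p) (hS : Encloses p S) (hQ : Deep S Q)
    (hO : w ∈ O1 (S : Set (ℤ × ℤ))) (hRO : (δ : ℂ) * w ∉ RO p k S A δ τ) {x : ℂ}
    (hx : x ∉ Om δ S) (h1 : |((δ : ℂ) * w).re - x.re| ≤ δ / 8)
    (h2 : |((δ : ℂ) * w).im - x.im| ≤ δ / 8) : Tm p k S A Q τ w := by
  refine term_far hδ hp hS hQ hO hRO fun w' hw' => ?_
  by_contra hcon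
  push Not at hcon
  refine hx ⟨w', hw', ?_, ?_⟩
  · have h3 := abs_sub_le x.re ((δ : ℂ) * w).re w'.re
    have h4 := abs_sub_comm x.re ((δ : ℂ) * w).re
    linarith [hcon.1]
  · have h3 := abs_sub_le x.im ((δ : ℂ) * w).im w'.im
    have h4 := abs_sub_comm x.im ((δ : ℂ) * w).im
    linarith [hcon.2]

/-- The points of the path in mesh `1`. -/
theorem path_pt {t : ℝ} (hτ : τ ≤ len p k A) (h1 : 1 ≤ t) (h2 : t ≤ τ + 1) :
    ∃ i ≤ τ, ∃ σ : ℝ, 0 ≤ σ ∧ σ ≤ 1 ∧ (i = τ → σ = 0) ∧ lin (xv p k A) t =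
      cpt (1 / 4) (run p k A i) + (σ : ℂ) * (cpt (1 / 4) (run p k A (i + 1)) -
        cpt (1 / 4) (run p k A i)) := by
  have h3 : (0 : ℝ) ≤ t - 1 := by linarith
  have h4 := Nat.floor_le h3
  have h5 := Nat.lt_floor_add_one (t - 1)
  set m := ⌊t - 1⌋₊ with hm
  have h6 : m ≤ τ := by
    have : (m : ℝ) ≤ τ := by linarith
    exact_mod_cast this
  have hlin := lin_eq (xv p k A) (m + 1) (s := t) (Or.inl (by push_cast; linarith))
    (by push_cast; linarith)
  rw [xv_mid (by omega : m ≤ len p k A)] at hlin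
  rcases h6.lt_or_eq with h7 | h7
  · refine ⟨m, h6, t - 1 - m, by linarith, by linarith, fun h => absurd h h7.ne, ?_⟩
    rw [hlin, xv_mid (by omega : m + 1 ≤ len p k A)]
    push_cast
    ring
  · refine ⟨m, h6, 0, le_rfl, zero_le_one, fun _ => rfl, ?_⟩
    have h8 : t - 1 = m := le_antisymm (by rw [h7]; linarith) h4
    have h9 : ((t - ((m + 1 : ℕ) : ℝ) : ℝ) : ℂ) = 0 := by
      have : t - ((m + 1 : ℕ) : ℝ) = 0 := by push_cast; linarith
      rw [this]; simp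
    rw [hlin]
    push_cast at h9 ⊢
    rw [h9]
    ring

theorem conv14 {a b σ : ℝ} (ha : a = 1 ∨ a = -1) (hb : b = 1 ∨ b = -1) (h0 : 0 ≤ σ) (h1 : σ ≤ 1) :
    |1 / 4 * a + σ * (1 / 4 * b - 1 / 4 * a)| ≤ 1 / 4 := by
  rw [abs_le]
  rcases ha with rfl | rfl <;> rcases hb with rfl | rfl <;> constructor <;> nlinarith

/-- A closed step stays in the box of the vertex. -/
theorem step_rot (c : Medial) {σ : ℝ} (h0 : 0 ≤ σ) (h1 : σ ≤ 1) :
    |(cpt (1 / 4) c + (σ : ℂ) * (cpt (1 / 4) (rot c) - cpt (1 / 4) c)).re - c.1.1| ≤ 1 / 4 ∧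
      |(cpt (1 / 4) c + (σ : ℂ) * (cpt (1 / 4) (rot c) - cpt (1 / 4) c)).im - c.1.2| ≤ 1 / 4 := by
  have e1 : (cpt (1 / 4) c + (σ : ℂ) * (cpt (1 / 4) (rot c) - cpt (1 / 4) c)).re - c.1.1 =
      1 / 4 * (E2.sq c.2).re + σ * (1 / 4 * (E2.sq (c.2 + 1)).re - 1 / 4 * (E2.sq c.2).re) := by
    rw [Complex.add_re, Complex.re_ofReal_mul, Complex.sub_re, cpt_re, cpt_re]
    show _ + 1 / 4 * (E2.sq c.2).re + σ * ((c.1.1 : ℝ) + 1 / 4 * (E2.sq (c.2 + 1)).re - _) - _ = _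
    ring
  have e2 : (cpt (1 / 4) c + (σ : ℂ) * (cpt (1 / 4) (rot c) - cpt (1 / 4) c)).im - c.1.2 =
      1 / 4 * (E2.sq c.2).im + σ * (1 / 4 * (E2.sq (c.2 + 1)).im - 1 / 4 * (E2.sq c.2).im) := by
    rw [Complex.add_im, Complex.im_ofReal_mul, Complex.sub_im, cpt_im, cpt_im]
    show _ + 1 / 4 * (E2.sq c.2).im + σ * ((c.1.2 : ℝ) + 1 / 4 * (E2.sq (c.2 + 1)).im - _) - _ = _
    ring
  rw [e1, e2]
  exact ⟨conv14 (sq_re _) (sq_re _) h0 h1, conv14 (sq_im _) (sq_im _) h0 h1⟩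

/-- An open step. -/
theorem step_adv (c : Medial) {σ : ℝ} (h0 : 0 ≤ σ) (h1 : σ ≤ 1) {y : ℂ}
    (hy : y = cpt (1 / 4) c + (σ : ℂ) * (cpt (1 / 4) (adv c) - cpt (1 / 4) c))
    (hw1 : |w.re - y.re| ≤ 1 / 16) (hw2 : |w.im - y.im| ≤ 1 / 16) :
    w ∈ B1 (3 / 8) c.1 ∨ w ∈ B1 (3 / 8) (adv c).1 ∨ w ∈ D1 c.1 (c.1 + dir (c.2 + 1)) := by
  obtain ⟨v, r⟩ := c
  rw [abs_le] at hw1 hw2
  have key : ∀ r : Fin 4, y = cpt (1 / 4) ((v, r) : Medial) +
      (σ : ℂ) * (cpt (1 / 4) (adv (v, r)) - cpt (1 / 4) ((v, r) : Medial)) →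
      w ∈ B1 (3 / 8) v ∨ w ∈ B1 (3 / 8) (adv (v, r)).1 ∨ w ∈ D1 v (v + dir (r + 1)) := by
    refine forall4 ?_ ?_ ?_ ?_ <;> intro hy <;>
      simp only [Fjord.adv_0, Fjord.adv_1, Fjord.adv_2, Fjord.adv_3, Fjord.cpt_0, Fjord.cpt_1,
        Fjord.cpt_2, Fjord.cpt_3] at hy <;>
      have e1 := congrArg Complex.re hy <;> have e2 := congrArg Complex.im hy <;>
      simp only [Complex.add_re, Complex.add_im, Complex.sub_re, Complex.sub_im,
        Complex.re_ofReal_mul, Complex.im_ofReal_mul] at e1 e2 <;>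
      push_cast at e1 e2
    · have e1' : y.re = v.1 + 1 / 4 := by rw [e1]; ring
      have e2' : y.im = v.2 + 1 / 4 + σ / 2 := by rw [e2]; ring
      rcases le_or_gt (w.im - v.2) (3 / 8) with a | a
      · left
        simp only [B1, mem_ofPred_eq, abs_le]
        refine ⟨⟨?_, ?_⟩, ?_, ?_⟩ <;> linarith
      rcases le_or_gt (5 / 8) (w.im - v.2) with b | b
      · right; left
        simp only [B1, Fjord.adv_0, mem_ofPred_eq, abs_le]
        push_cast
        refine ⟨⟨?_, ?_⟩, ?_, ?_⟩ <;> linarith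
      · right; right
        simp only [D1, f4_01, dir1, Prod.fst_add, Prod.snd_add, mem_ofPred_eq, abs2_le]
        push_cast
        refine ⟨?_, ?_, ?_, ?_⟩ <;> linarith
    · have e1' : y.re = v.1 - 1 / 4 - σ / 2 := by rw [e1]; ring
      have e2' : y.im = v.2 + 1 / 4 := by rw [e2]; ring
      rcases le_or_gt (-(3 / 8)) (w.re - v.1) with a | a
      · left
        simp only [B1, mem_ofPred_eq, abs_le]
        refine ⟨⟨?_, ?_⟩, ?_, ?_⟩ <;> linarith
      rcases le_or_gt (w.re - v.1) (-(5 / 8)) with b | b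
      · right; left
        simp only [B1, Fjord.adv_1, mem_ofPred_eq, abs_le]
        push_cast
        refine ⟨⟨?_, ?_⟩, ?_, ?_⟩ <;> linarith
      · right; right
        simp only [D1, f4_11, dir2, Prod.fst_add, Prod.snd_add, mem_ofPred_eq, abs2_le]
        push_cast
        refine ⟨?_, ?_, ?_, ?_⟩ <;> linarith
    · have e1' : y.re = v.1 - 1 / 4 := by rw [e1]; ring
      have e2' : y.im = v.2 - 1 / 4 - σ / 2 := by rw [e2]; ring
      rcases le_or_gt (-(3 / 8)) (w.im - v.2) with a | a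
      · left
        simp only [B1, mem_ofPred_eq, abs_le]
        refine ⟨⟨?_, ?_⟩, ?_, ?_⟩ <;> linarith
      rcases le_or_gt (w.im - v.2) (-(5 / 8)) with b | b
      · right; left
        simp only [B1, Fjord.adv_2, mem_ofPred_eq, abs_le]
        push_cast
        refine ⟨⟨?_, ?_⟩, ?_, ?_⟩ <;> linarith
      · right; right
        simp only [D1, f4_21, dir3, Prod.fst_add, Prod.snd_add, mem_ofPred_eq, abs2_le]
        push_cast
        refine ⟨?_, ?_, ?_, ?_⟩ <;> linarith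
    · have e1' : y.re = v.1 + 1 / 4 + σ / 2 := by rw [e1]; ring
      have e2' : y.im = v.2 - 1 / 4 := by rw [e2]; ring
      rcases le_or_gt (w.re - v.1) (3 / 8) with a | a
      · left
        simp only [B1, mem_ofPred_eq, abs_le]
        refine ⟨⟨?_, ?_⟩, ?_, ?_⟩ <;> linarith
      rcases le_or_gt (5 / 8) (w.re - v.1) with b | b
      · right; left
        simp only [B1, Fjord.adv_3, mem_ofPred_eq, abs_le]
        push_cast
        refine ⟨⟨?_, ?_⟩, ?_, ?_⟩ <;> linarith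
      · right; right
        simp only [D1, f4_31, dir0, Prod.fst_add, Prod.snd_add, mem_ofPred_eq, abs2_le]
        push_cast
        refine ⟨?_, ?_, ?_, ?_⟩ <;> linarith
  exact key r hy

/-- **Terminal analysis.** -/
theorem term_all (hδ : 0 < δ) (hp : IsPolygon p) (hS : Encloses p S) (hk0 : 0 < k) (hk : k + 1 < n)
    (hA : A ⊆ edges S) (hτ : τ ≤ len p k A) (hQ : Deep S Q)
    (hQX : ∀ i < τ, ahead (run p k A i) ∉ Q) (hO : w ∈ O1 (S : Set (ℤ × ℤ)))
    (hRO : (δ : ℂ) * w ∉ RO p k S A δ τ) (hN : Near p k S A δ τ ((δ : ℂ) * w)) :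
    Tm p k S A Q τ w := by
  obtain ⟨x, hx, h1, h2⟩ := hN
  rcases hx with ⟨t, ht, rfl⟩ | hx
  swap
  · have hx' : x ∉ Om δ S := by
      rw [(H327.isOpen_Om hδ S).frontier_eq] at hx
      exact hx.2
    exact term_front hδ hp hS hQ hO hRO hx' (by linarith) (by linarith)
  unfold pl at h1 h2
  rw [Complex.re_ofReal_mul, Complex.re_ofReal_mul, ← mul_sub, abs_mul, abs_of_pos hδ] at h1
  rw [Complex.im_ofReal_mul, Complex.im_ofReal_mul, ← mul_sub, abs_mul, abs_of_pos hδ] at h2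
  have h1' : |w.re - (lin (xv p k A) t).re| ≤ 1 / 16 := by
    have : δ * |w.re - (lin (xv p k A) t).re| ≤ δ * (1 / 16) := by linarith
    exact le_of_mul_le_mul_left this hδ
  have h2' : |w.im - (lin (xv p k A) t).im| ≤ 1 / 16 := by
    have : δ * |w.im - (lin (xv p k A) t).im| ≤ δ * (1 / 16) := by linarith
    exact le_of_mul_le_mul_left this hδ
  have hrv : ∀ j, (run p k A j).1 ∈ verts S := fun j => run_mem hp hS hA j
  rcases le_or_gt t 1 with h3 | h3
  · -- the first piece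
    rw [lin_first h3] at h1' h2'
    have hcs : (cs p).1 ∈ verts S := hrv 0
    have hT : Tg p k A τ (cs p).1 := Or.inl ⟨0, Nat.zero_le _, rfl⟩
    rcases le_or_gt (3 / 8 - t / 8) (5 / 16) with h4 | h4
    · left
      refine ⟨_, hcs, hT, ?_⟩
      have ht0 := ht.1
      rw [cpt_re] at h1'
      rw [cpt_im] at h2'
      rw [abs_le] at h1' h2'
      simp only [B1, mem_ofPred_eq, abs_le]
      have hθ : (0 : ℝ) ≤ 3 / 8 - t / 8 := by linarith
      rcases sq_re (cs p).2 with a | a <;> rcases sq_im (cs p).2 with b | b <;>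
        rw [a] at h1' <;> rw [b] at h2' <;> refine ⟨⟨?_, ?_⟩, ?_, ?_⟩ <;> linarith
    · refine term_front hδ hp hS hQ hO hRO (x := (δ : ℂ) * cpt (3 / 8) (cs p)) (fun h => ?_) ?_ ?_
      · exact Fjord.cpt_not_O1 (fc_cs hp hS) le_rfl (by norm_num) ((mem_Om hδ).1 h)
      · rw [Complex.re_ofReal_mul, Complex.re_ofReal_mul, ← mul_sub, abs_mul, abs_of_pos hδ]
        have : |w.re - (cpt (3 / 8) (cs p)).re| ≤ 1 / 8 := by
          have ht0 := ht.1
          rw [cpt_re] at h1' ⊢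
          rw [abs_le] at h1' ⊢
          rcases sq_re (cs p).2 with a | a <;> rw [a] at h1' ⊢ <;> constructor <;> linarith
        have := mul_le_mul_of_nonneg_left this hδ.le
        linarith
      · rw [Complex.im_ofReal_mul, Complex.im_ofReal_mul, ← mul_sub, abs_mul, abs_of_pos hδ]
        have : |w.im - (cpt (3 / 8) (cs p)).im| ≤ 1 / 8 := by
          have ht0 := ht.1
          rw [cpt_im] at h2' ⊢
          rw [abs_le] at h2' ⊢
          rcases sq_im (cs p).2 with a | a <;> rw [a] at h2' ⊢ <;> constructor <;> linarith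
        have := mul_le_mul_of_nonneg_left this hδ.le
        linarith
  · obtain ⟨i, hi, σ, h0, hσ, hiτ, hlin⟩ := path_pt hτ h3.le ht.2
    have hTi : Tg p k A τ (run p k A i).1 := Or.inl ⟨i, hi, rfl⟩
    by_cases hop : i < τ ∧ ahead (run p k A i) ∈ wiredOpen p k A
    · obtain ⟨hiτ', hop⟩ := hop
      rw [run_adv hop] at hlin
      have hTi' : Tg p k A τ (adv (run p k A i)).1 := by
        left
        exact ⟨i + 1, hiτ', by rw [run_adv hop]⟩
      rcases step_adv (run p k A i) h0 hσ hlin h1' h2' with h | h | h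
      · exact Or.inl ⟨_, hrv i, hTi, h⟩
      · refine Or.inl ⟨_, ?_, hTi', h⟩
        rw [← run_adv hop]
        exact hrv (i + 1)
      · refine Or.inr ⟨(run p k A i).1, (run p k A i).2 + 1, ⟨wired_sub hp hS hA hop, hQX i hiτ',
          fun _ _ _ => hop⟩, h, hTi, hTi'⟩
    · left
      refine ⟨_, hrv i, hTi, ?_⟩
      have hbox : |(lin (xv p k A) t).re - (run p k A i).1.1| ≤ 1 / 4 ∧
          |(lin (xv p k A) t).im - (run p k A i).1.2| ≤ 1 / 4 := by
        by_cases hi' : i < τ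
        · have hcl : ahead (run p k A i) ∉ wiredOpen p k A := fun h => hop ⟨hi', h⟩
          rw [hlin, run_rot hcl]
          exact step_rot _ h0 hσ
        · have hσ0 := hiτ (by omega)
          subst hσ0
          have := step_rot (run p k A i) (σ := 0) le_rfl zero_le_one
          rw [hlin]
          simp only [Complex.ofReal_zero, zero_mul, add_zero] at this ⊢
          exact this
      obtain ⟨a1, a2⟩ := hbox
      constructor
      · have := abs_sub_le w.re (lin (xv p k A) t).re (run p k A i).1.1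
        linarith
      · have := abs_sub_le w.im (lin (xv p k A) t).im (run p k A i).1.2
        linarith

/-! ### The theorem -/

theorem canon (u : ℤ × ℤ) (r : Fin 4) : ∃ u' h, s(u, u + dir r) = s(u', u' + st h) ∧
    D1 u (u + dir r) = D1 u' (u' + st h) ∧ (u' = u ∨ u' = u + dir r) := by
  have key : ∀ r : Fin 4, ∃ u' h, s(u, u + dir r) = s(u', u' + st h) ∧
    D1 u (u + dir r) = D1 u' (u' + st h) ∧ (u' = u ∨ u' = u + dir r) := by
    refine forall4 ?_ ?_ ?_ ?_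
    · exact ⟨u, true, rfl, rfl, Or.inl rfl⟩
    · exact ⟨u, false, rfl, rfl, Or.inl rfl⟩
    · have e : u + dir 2 + st true = u := by
        rw [dir2]; apply Prod.ext <;> simp [st]
      exact ⟨u + dir 2, true, by rw [e]; exact Sym2.eq_swap, by rw [e]; exact D1_comm _ _,
        Or.inr rfl⟩
    · have e : u + dir 3 + st false = u := by
        rw [dir3]; apply Prod.ext <;> simp [st]
      exact ⟨u + dir 3, false, by rw [e]; exact Sym2.eq_swap, by rw [e]; exact D1_comm _ _,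
        Or.inr rfl⟩
  exact key r

theorem exists_dir_of_st {a b : ℤ × ℤ} (h : ∃ h, b = a + st h ∨ a = b + st h) :
    ∃ r, b = a + dir r := by
  obtain ⟨h, h' | h'⟩ := h
  · cases h
    · exact ⟨1, h'⟩
    · exact ⟨0, h'⟩
  · cases h
    · refine ⟨3, ?_⟩
      rw [h', dir3]
      apply Prod.ext <;> simp [st]
    · refine ⟨2, ?_⟩
      rw [h', dir2]
      apply Prod.ext <;> simp [st]

/-- First visit of a set of targets. -/
theorem first_hit {α : Type*} {R : α → α → Prop} {T : α → Prop} {a b : α}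
    (h : Relation.ReflTransGen R a b) (hb : T b) :
    ∃ c, T c ∧ Relation.ReflTransGen (fun x y => ¬ T x ∧ R x y) a c := by
  induction h using Relation.ReflTransGen.head_induction_on with
  | refl => exact ⟨b, hb, Relation.ReflTransGen.refl⟩
  | @head a c hac _ ih =>
    obtain ⟨d, hd, hcd⟩ := ih
    by_cases ha : T a
    · exact ⟨a, ha, Relation.ReflTransGen.refl⟩
    · exact ⟨d, hd, Relation.ReflTransGen.head ⟨ha, hac⟩ hcd⟩

theorem s_cellP : S_cellP := by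
  intro n p S k A δ hδ hp hS hk0 hk hA τ hτ Q hQ hQX C hC hCO hCR hav v₀ hv₀ hnear
  have hδ' : (δ : ℂ) ≠ 0 := by exact_mod_cast hδ.ne'
  -- normalisation
  set C1 : Set ℂ := (fun z : ℂ => (δ : ℂ)⁻¹ * z) '' C with hC1
  have memC : ∀ w : ℂ, w ∈ C1 ↔ (δ : ℂ) * w ∈ C := by
    intro w
    constructor
    · rintro ⟨z, hz, rfl⟩
      simpa [mul_inv_cancel_left₀ hδ'] using hz
    · intro h
      exact ⟨_, h, inv_mul_cancel_left₀ hδ' _⟩
  have hC1c : IsPreconnected C1 := hC.image _ (by fun_prop)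
  have hO : ∀ w ∈ C1, w ∈ O1 (S : Set (ℤ × ℤ)) := fun w hw =>
    (mem_Om hδ).1 (hCO ((memC w).1 hw))
  have hRO : ∀ w ∈ C1, (δ : ℂ) * w ∉ RO p k S A δ τ := fun w hw h =>
    Set.disjoint_left.1 hCR ((memC w).1 hw) h
  have hav1 : ∀ w ∈ C1, ∃ u r, s(u, u + dir r) ∉ Q ∧ w ∈ D1 u (u + dir r) := by
    intro w hw
    obtain ⟨u, r, h1, h2⟩ := hav.av _ ((memC w).1 hw)
    exact ⟨u, r, h1, (mem_Dm hδ).1 h2⟩
  -- centres of faces
  have hcf : ∀ f : ℤ × ℤ, c1 f ∈ C1 → cf δ f ∈ C := by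
    intro f hf
    have := (memC _).1 hf
    have e : (δ : ℂ) * c1 f = cf δ f := by
      unfold cf c1
      congr 1
      apply Complex.ext <;> simp [pt]
    rwa [e] at this
  have hcS : ∀ f : ℤ × ℤ, c1 f ∈ C1 → f ∈ S ∧ ∀ i ≤ τ, fc (run p k A i) ≠ f := by
    intro f hf
    have hfS : f ∈ S := by
      obtain ⟨g, hg, g1, g2, g3, g4⟩ := hO _ hf
      simp only [c1] at g1 g2 g3 g4
      have e1 : g.1 = f.1 := int_eq_of (by linarith) (by linarith)
      have e2 : g.2 = f.2 := int_eq_of (by linarith) (by linarith)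
      have : g = f := Prod.ext e1 e2
      exact this ▸ hg
    refine ⟨hfS, fun i hi h => ?_⟩
    refine hRO _ hf (Or.inl ⟨i, hi, by rw [h]; exact hfS, ?_⟩)
    rw [h]
    refine (mem_Bx hδ).2 ?_
    simp only [c1, sub_self, abs_zero]
    norm_num
  have hside : ∀ f : ℤ × ℤ, c1 f ∈ C1 → ∀ u r, s(u, u + dir r) ∉ Q →
      (face u r = f ∨ face u (r - 1) = f) → s(u, u + dir r) ∈ Gd p k S A Q τ := by
    intro f hf u r hQe hfe
    obtain ⟨hfS, hvis⟩ := hcS f hf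
    refine ⟨?_, hQe, ?_⟩
    · rw [mem_edges]
      rcases hfe with h | h
      · exact Or.inl (h ▸ hfS)
      · exact Or.inr (h ▸ hfS)
    · intro i hi he
      by_contra hcl
      have hcl' : ahead (run p k A i) ∉ wiredOpen p k A := by rw [he]; exact hcl
      have e2 : fc (rot (run p k A i)) = fc (run p k A (i + 1)) := by rw [run_rot hcl']
      rcases ahead_faces he with ⟨a, b⟩ | ⟨a, b⟩ <;> rcases hfe with h | h
      · exact hvis (i + 1) hi (by rw [← e2, ← a, h])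
      · exact hvis i hi.le (by rw [← b, h])
      · exact hvis i hi.le (by rw [← a, h])
      · exact hvis (i + 1) hi (by rw [← e2, ← b, h])
  have hcore := core hC1c (ρ := 3 / 8) (by norm_num) (V := verts S) (V' := verts S)
    (G := Gd p k S A Q τ) ?_ ?_ ?_ (v₀ := v₀) ?_ ?_
  rotate_left
  · intro w hw
    rcases cover hδ hp hS hQ (hO w hw) (hav1 w hw) (hRO w hw) with h | ⟨u, r, h1, h2⟩
    · exact Or.inl h
    · right
      obtain ⟨u', h, e1, e2, e3⟩ := canon u r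
      refine ⟨u', ?_, h, e1 ▸ h1, e2 ▸ h2⟩
      obtain ⟨a, b⟩ := ends_verts h1.1
      rcases e3 with rfl | rfl
      · exact a
      · exact b
  · -- opposite sides, bottom and top
    intro f hf g1 g2
    have h1 : s(f, f + (1, 0)) ∉ Q := g1.2.1
    have h2 : s(f + (0, 1), f + (0, 1) + (1, 0)) ∉ Q := g2.2.1
    have h3 := hav.cf f (hcf f hf) 0
    have e0 : f + ![(0, 0), (1, 0), (1, 1), (0, 1)] (0 : Fin 4) = f := by simp
    have e1 : f + ![(0, 0), (1, 0), (1, 1), (0, 1)] (0 + 1 : Fin 4) = f + (1, 0) := rfl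
    have e2 : f + ![(0, 0), (1, 0), (1, 1), (0, 1)] (0 + 2 : Fin 4) = f + (1, 1) := rfl
    have e3 : f + ![(0, 0), (1, 0), (1, 1), (0, 1)] (0 + 3 : Fin 4) = f + (0, 1) := rfl
    rw [e0, e1, e2, e3] at h3
    have e4 : f + (0, 1) + (1, 0) = f + (1, 1) := by rw [add_assoc]; rfl
    have e5 : f + (1, 0) + (0, 1) = f + (1, 1) := by rw [add_assoc]; rfl
    rw [e4, Sym2.eq_swap] at h2
    rcases h3 h1 h2 with h | h
    · right
      rw [e5]
      have := hside f hf (f + (1, 0)) 1 (by rw [dir1, e5]; exact h) (Or.inl (by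
        rw [face1]; apply Prod.ext <;> simp))
      rwa [dir1, e5] at this
    · left
      rw [Sym2.eq_swap] at h
      have := hside f hf f 1 (by rw [dir1]; exact h) (Or.inr (by rw [f4_1m, face0]))
      rwa [dir1] at this
  · -- opposite sides, left and right
    intro f hf g1 g2
    have h1 : s(f, f + (0, 1)) ∉ Q := g1.2.1
    have h2 : s(f + (1, 0), f + (1, 0) + (0, 1)) ∉ Q := g2.2.1
    have h3 := hav.cf f (hcf f hf) 1
    have e0 : f + ![(0, 0), (1, 0), (1, 1), (0, 1)] (1 : Fin 4) = f + (1, 0) := rfl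
    have e1 : f + ![(0, 0), (1, 0), (1, 1), (0, 1)] (1 + 1 : Fin 4) = f + (1, 1) := rfl
    have e2 : f + ![(0, 0), (1, 0), (1, 1), (0, 1)] (1 + 2 : Fin 4) = f + (0, 1) := rfl
    have e3 : f + ![(0, 0), (1, 0), (1, 1), (0, 1)] (1 + 3 : Fin 4) = f := by
      show f + (0, 0) = f
      simp
    rw [e0, e1, e2, e3] at h3
    have e4 : f + (0, 1) + (1, 0) = f + (1, 1) := by rw [add_assoc]; rfl
    have e5 : f + (1, 0) + (0, 1) = f + (1, 1) := by rw [add_assoc]; rfl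
    rw [e5] at h2
    rw [Sym2.eq_swap] at h1
    rcases h3 h2 h1 with h | h
    · right
      rw [e4]
      rw [Sym2.eq_swap] at h
      have := hside f hf (f + (0, 1)) 0 (by rw [dir0, e4]; exact h) (Or.inr (by
        rw [f4_0m, face3]; apply Prod.ext <;> simp))
      rwa [dir0, e4] at this
    · left
      have := hside f hf f 0 (by rw [dir0]; exact h) (Or.inl (by rw [face0]))
      rwa [dir0] at this
  · -- the starting vertex is in the domain
    obtain ⟨g, hg, g1, g2, g3, g4⟩ := hO _ ((memC (pt v₀)).2 hv₀)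
    simp only [pt] at g1 g2 g3 g4
    have a1 : g.1 ≤ v₀.1 := int_le_of (by linarith)
    have a2 : v₀.1 ≤ g.1 + 1 := int_le_of (by push_cast; linarith)
    have a3 : g.2 ≤ v₀.2 := int_le_of (by linarith)
    have a4 : v₀.2 ≤ g.2 + 1 := int_le_of (by push_cast; linarith)
    have hcf : pt v₀ ∈ CF g := by
      simp only [CF, pt, mem_ofPred_eq]
      refine ⟨⟨?_, ?_⟩, ?_, ?_⟩
      · exact_mod_cast a1
      · exact_mod_cast a2
      · exact_mod_cast a3
      · exact_mod_cast a4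
    obtain ⟨t, ht⟩ := vert_of_CF hcf
    exact mem_verts.2 ⟨t, ht ▸ hg⟩
  · exact ⟨pt v₀, (memC _).2 hv₀, pt_B1 _ (by norm_num) _⟩
  -- the terminal point
  obtain ⟨z, hz, hN⟩ := hnear
  have hw : (δ : ℂ)⁻¹ * z ∈ C1 := ⟨z, hz, rfl⟩
  have hz' : (δ : ℂ) * ((δ : ℂ)⁻¹ * z) = z := mul_inv_cancel_left₀ hδ' _
  have hterm := term_all hδ hp hS hk0 hk hA hτ hQ hQX (hO _ hw) (hRO _ hw) (by rw [hz']; exact hN)
  have hreach : ∃ v, Tg p k A τ v ∧ Relation.ReflTransGen (R1 (Gd p k S A Q τ) C1) v₀ v := by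
    rcases hterm with ⟨v, hv, hT, hB⟩ | ⟨u, r, hG, hD, hT, hT'⟩
    · exact ⟨v, hT, hcore.1 v hv ⟨_, hw, hB⟩⟩
    · obtain ⟨u', h, e1, e2, e3⟩ := canon u r
      obtain ⟨a, b⟩ := ends_verts hG.1
      have hu' : u' ∈ verts S := by
        rcases e3 with rfl | rfl
        · exact a
        · exact b
      refine ⟨u', ?_, hcore.2 u' hu' h (e1 ▸ hG) ⟨_, hw, e2 ▸ hD⟩⟩
      rcases e3 with rfl | rfl
      · exact hT
      · exact hT'
  obtain ⟨v, hT, hR⟩ := hreach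
  obtain ⟨v₁, hT₁, hR₁⟩ := first_hit (T := Tg p k A τ) hR hT
  refine ⟨v₁, hT₁, Relation.ReflTransGen.mono (fun a b hab => ?_) _ _ hR₁⟩
  obtain ⟨haT, hst, hG, z', hzD, hzC⟩ := hab
  refine ⟨exists_dir_of_st hst, ⟨hG.1, fun hW => haT (Wd_ends hW (Sym2.mem_mk_left _ _)), hG.2.1,
    fun i hi he => haT ?_⟩, ⟨(δ : ℂ) * z', (mem_Dm hδ).2 hzD, (memC _).1 hzC⟩⟩
  have hop : ahead (run p k A i) ∈ wiredOpen p k A := by
    rw [he]
    exact hG.2.2 i hi he
  have ha : a ∈ ahead (run p k A i) := by rw [he]; exact Sym2.mem_mk_left _ _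
  unfold ahead at ha
  rcases Sym2.mem_iff.1 ha with h | h
  · exact Or.inl ⟨i, hi.le, h⟩
  · refine Or.inl ⟨i + 1, hi, ?_⟩
    rw [run_adv hop, h]
    rfl

end Vale.Agent.P167.H634
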