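import Vale.Agent.P167.H634.AvoQ
import Vale.Agent.P167.H634.CellP2
import Vale.Agent.P167.H161.CellD
import Vale.Agent.P167.H161.Expd
import Vale.Agent.P167.H161.ArmE
import Vale.Agent.P167.H531.Walk

/-!
# P167, block CG3 (CELL): the statements in the squares model

* `FqC`: the fresh squares of the domain, outside of `PE`, whose closed square meets `C`;
* `cellP_sq`: from an even site in `C` there is a path of squares of `FqC` to a visited or wired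
  vertex; `cellP_wired`: with the explored open squares, to a wired vertex;
* `cellD_sq`, `cellD_free`: the same for the odd sites, to the outer side of an edge of the polygon
  which is not wired;
* `near_of_closure`: the hypothesis `Near`.

The hypothesis `hCP` follows by `exists_sq` if `C` is off the interior of the union of the closed
squares of `PE`.
-/

open Set Metric

namespace Vale.Agent.P167.H634

open Vale.Agent.P145.FB (PStep)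
open Vale.Agent.P167.E6 Vale.Agent.P167.E2 Vale.Agent.P167.H531
open Vale.Agent.P167.H161 (zp eo ec sp sr)
open Vale.Agent.P167.H192 (rf rf' sq ed IsEdge ed_sq sq_ed ed_inj isEdge_ed even_ro odd_rf
  ro_inj ro_ro' rf_rf' rf'_rf sq_mk ro_dir isEdge_edges dq mem_dq)

variable {n : ℕ} {p : ZMod n → ℤ × ℤ} {k : ℕ} {S : Finset (ℤ × ℤ)}
  {A : Finset (Sym2 (ℤ × ℤ))} {δ : ℝ}

theorem Avo.congr {Q Q' : Set (Sym2 (ℤ × ℤ))} {C : Set ℂ}
    (h : ∀ u r, s(u, u + dir r) ∈ Q ↔ s(u, u + dir r) ∈ Q') (hA : Avo δ Q C) : Avo δ Q' C := by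
  have hco : ∀ (f : ℤ × ℤ) (r : Fin 4), s(co f r, co f (r + 1)) ∈ Q ↔
      s(co f r, co f (r + 1)) ∈ Q' := by
    intro f r
    rw [co_add]
    exact h _ _
  have a2 : ∀ r : Fin 4, r + 2 + 1 = r + 3 := by decide
  have a4 : ∀ r : Fin 4, r + 3 + 1 = r := by decide
  have a5 : ∀ r : Fin 4, r + 1 + 1 = r + 2 := by decide
  have h1 : ∀ (f : ℤ × ℤ) (r : Fin 4), s(co f (r + 2), co f (r + 3)) ∈ Q ↔
      s(co f (r + 2), co f (r + 3)) ∈ Q' := by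
    intro f r
    have := hco f (r + 2)
    rwa [a2] at this
  have h2 : ∀ (f : ℤ × ℤ) (r : Fin 4), s(co f (r + 1), co f (r + 2)) ∈ Q ↔
      s(co f (r + 1), co f (r + 2)) ∈ Q' := by
    intro f r
    have := hco f (r + 1)
    rwa [a5] at this
  have h3 : ∀ (f : ℤ × ℤ) (r : Fin 4), s(co f (r + 3), co f r) ∈ Q ↔
      s(co f (r + 3), co f r) ∈ Q' := by
    intro f r
    have := hco f (r + 3)
    rwa [a4] at this
  refine ⟨?_, ?_, ?_⟩
  · intro z hz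
    obtain ⟨u, r, g1, g2⟩ := hA.av z hz
    exact ⟨u, r, fun g => g1 ((h u r).2 g), g2⟩
  · intro f hf r g1 g2
    exact (hA.cf f hf r (fun g => g1 ((hco f r).1 g)) (fun g => g2 ((h1 f r).1 g))).imp
      (fun g g' => g ((h2 f r).2 g')) (fun g g' => g ((h3 f r).2 g'))
  · intro v hv r g1 g2
    exact (hA.pt v hv r (fun g => g1 ((h _ _).1 g)) (fun g => g2 ((h _ _).1 g))).imp
      (fun g g' => g ((h _ _).2 g')) (fun g g' => g ((h _ _).2 g'))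

/-- The edges of a set of squares. -/
def Ed (D : Set (ℤ × ℤ)) : Set (Sym2 (ℤ × ℤ)) := {e | IsEdge e ∧ sq e ∈ D}

theorem mem_Ed {D : Set (ℤ × ℤ)} {u : ℤ × ℤ} {r : Fin 4} :
    s(u, u + dir r) ∈ Ed D ↔ sq s(u, u + dir r) ∈ D :=
  ⟨fun h => h.2, fun h => ⟨⟨u, r, rfl⟩, h⟩⟩

/-- The squares of `D` are away from the boundary: all the faces at their even corners are
enclosed. -/
def DeepQ (S : Finset (ℤ × ℤ)) (D : Set (ℤ × ℤ)) : Prop :=
  ∀ u r, sq s(u, u + dir r) ∈ D → ∀ t, face u t ∈ S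

theorem deep_Ed {D : Set (ℤ × ℤ)} (h : DeepQ S D) : Deep S (Ed D) := by
  rintro e ⟨⟨w, r, rfl⟩, he⟩ v hv t
  rcases Sym2.mem_iff.1 hv with rfl | rfl
  · exact h _ r he t
  · refine h _ (r + 2) ?_ t
    rw [dir_add_two', Sym2.eq_swap]
    exact he

theorem avo_Ed {m : ℕ} {q : ZMod m → ℤ × ℤ} {PE : Finset (ℤ × ℤ)} (hq : IsPolygon q)
    (hPE : Encloses q PE) (hδ : 0 < δ) {C : Set ℂ}
    (hC : ∀ z ∈ C, ∃ v, v ∉ PE ∧ z ∈ SqD δ v) : Avo δ (Ed ↑PE) C := by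
  refine (avo_of_squares' hq hPE hδ (K := ∅) hC fun _ _ _ h => h.elim).congr fun u r => ?_
  rw [mem_Ed, mem_ofPred_eq, union_empty]

/-- The fresh squares outside of `PE` whose closed square meets `C`. -/
def FqC (p : ZMod n → ℤ × ℤ) (k : ℕ) (S : Finset (ℤ × ℤ)) (A : Finset (Sym2 (ℤ × ℤ))) (δ : ℝ)
    (PE : Set (ℤ × ℤ)) (C : Set ℂ) (τ : ℕ) : Set (ℤ × ℤ) :=
  {v | v ∈ dq p k S ∧ v ∉ PE ∧ (∀ i < τ, sq (ahead (run p k A i)) ≠ v) ∧ (SqD δ v ∩ C).Nonempty}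

theorem mem_FqC (hδ : 0 < δ) {D : Set (ℤ × ℤ)} {C : Set ℂ} {τ : ℕ} {u : ℤ × ℤ} {r : Fin 4}
    (h1 : Fr p k S A (Ed D) τ s(u, u + dir r)) (h2 : (Dm δ u (u + dir r) ∩ C).Nonempty) :
    sq s(u, u + dir r) ∈ FqC p k S A δ D C τ := by
  obtain ⟨g1, g2, g3, g4⟩ := h1
  refine ⟨?_, fun h => g3 (mem_Ed.2 h), fun i hi h => g4 i hi ?_, ?_⟩
  · rw [mem_dq, ed_sq ⟨u, r, rfl⟩]
    exact ⟨g1, g2⟩
  · rw [← ed_sq ⟨u, r, rfl⟩, ← h, ed_sq (H192.isEdge_ahead _)]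
  · rwa [← Dm_sq hδ]

theorem pst_cn (hδ : 0 < δ) {D : Set (ℤ × ℤ)} {C : Set ℂ} {τ : ℕ} {v₀ v₁ : ℤ × ℤ}
    (h : Relation.ReflTransGen (PSt p k S A δ (Ed D) C τ) v₀ v₁) :
    Cn (StM 0) (FqC p k S A δ D C τ) (H192.ro v₀) (H192.ro v₁) := by
  induction h with
  | refl => exact Cn.refl _ _
  | @tail b c _ hbc ih =>
    obtain ⟨⟨r, rfl⟩, h1, h2⟩ := hbc
    refine ih.tail ⟨_, mem_FqC hδ h1 h2, stE_stM ⟨?_, r, rfl⟩⟩
    rw [ed_sq ⟨b, r, rfl⟩]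

/-- **CELL, primal, in the squares model.** -/
theorem cellP_sq (hδ : 0 < δ) (hp : IsPolygon p) (hS : Encloses p S) (hk : 0 < k)
    (hkn : k + 1 < n) (hA : A ⊆ edges S) {τ : ℕ} (hτ : τ ≤ len p k A) {m : ℕ}
    {q : ZMod m → ℤ × ℤ} {PE : Finset (ℤ × ℤ)} (hq : IsPolygon q) (hPE : Encloses q PE)
    (hdeep : DeepQ S ↑PE) (hfr : ∀ i < τ, sq (ahead (run p k A i)) ∉ PE) {C : Set ℂ}
    (hC : IsPreconnected C) (hOm : C ⊆ Om δ S) (hRO : Disjoint C (RO p k S A δ τ))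
    (hCP : ∀ z ∈ C, ∃ v, v ∉ PE ∧ z ∈ SqD δ v) {y : ℤ × ℤ}
    (hy : (y.1 + y.2) % 2 = 0) (hyC : zp δ y ∈ C) (hnear : ∃ z ∈ C, Near p k S A δ τ z) :
    ∃ v₁, ((∃ i ≤ τ, v₁ = (run p k A i).1) ∨ ∃ i : ℕ, k ≤ i ∧ i < n ∧ v₁ = p i) ∧
      Cn (StM 0) (FqC p k S A δ ↑PE C τ) y (H192.ro v₁) := by
  have ey : H192.ro (H192.ro' y) = y := ro_ro' (Int.even_iff.2 hy)
  obtain ⟨v₁, h1, h2⟩ := s_cellP hδ hp hS hk hkn hA τ hτ (Ed ↑PE) (deep_Ed hdeep)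
    (fun i hi h => hfr i hi h.2) C hC hOm hRO (avo_Ed hq hPE hδ hCP) (H192.ro' y)
    (by rw [← H161.zp_ro, ey]; exact hyC) hnear
  refine ⟨v₁, h1, ?_⟩
  have h3 := pst_cn hδ h2
  rwa [ey] at h3

theorem pstep_stM {F : Set (ℤ × ℤ)} {c : ℤ} {x y : ℤ × ℤ} (hx : (x.1 + x.2) % 2 = c)
    (h : PStep F x y) : (∃ v ∈ F, StM c v x y) ∧ (y.1 + y.2) % 2 = c := by
  obtain ⟨h1, h2, h3⟩ := h
  exact ⟨⟨_, h3, rfl, h1, h2, hx⟩, by omega⟩

theorem pstep_cn {F : Set (ℤ × ℤ)} {c : ℤ} {x y : ℤ × ℤ} (hx : (x.1 + x.2) % 2 = c)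
    (h : Relation.ReflTransGen (PStep F) x y) : Cn (StM c) F x y ∧ (y.1 + y.2) % 2 = c := by
  induction h with
  | refl => exact ⟨Cn.refl _ _, hx⟩
  | tail _ hbc ih =>
    obtain ⟨h1, h2⟩ := pstep_stM ih.2 hbc
    exact ⟨ih.1.tail h1, h2⟩

theorem par_ro (v : ℤ × ℤ) : ((H192.ro v).1 + (H192.ro v).2) % 2 = 0 := by
  simp only [H192.ro]
  omega

theorem par_rf (f : ℤ × ℤ) : ((rf f).1 + (rf f).2) % 2 = 1 := by
  simp only [H192.rf]
  omega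

/-- The squares of `FqC` are not explored. -/
theorem FqC_sr {w : Cfg} {D : Set (ℤ × ℤ)} {C : Set ℂ} {τ : ℕ} {v : ℤ × ℤ}
    (h : v ∈ FqC p k S (H192.As S w) δ D C τ) : v ∉ sr p k S τ w := by
  intro h1
  obtain ⟨-, i, hi, h2⟩ := H192.mem_rev.1 h1
  have h3 : hdv (sp p k S w i) = v := h2
  rw [H161.hdv_sp] at h3
  exact h.2.2.1 i hi h3

/-- **CELL, primal, to the wired arc.** -/
theorem cellP_wired (hδ : 0 < δ) (hp : IsPolygon p) (hS : Encloses p S) (hk : 0 < k)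
    (hkn : k + 1 < n) (w : Cfg) {τ : ℕ} (hτ : τ ≤ len p k (H192.As S w)) {m : ℕ}
    {q : ZMod m → ℤ × ℤ} {PE : Finset (ℤ × ℤ)} (hq : IsPolygon q) (hPE : Encloses q PE)
    (hdeep : DeepQ S ↑PE) (hfr : ∀ i < τ, sq (ahead (run p k (H192.As S w) i)) ∉ PE) {C : Set ℂ}
    (hC : IsPreconnected C) (hOm : C ⊆ Om δ S)
    (hRO : Disjoint C (RO p k S (H192.As S w) δ τ))
    (hCP : ∀ z ∈ C, ∃ v, v ∉ PE ∧ z ∈ SqD δ v) {y : ℤ × ℤ}
    (hy : (y.1 + y.2) % 2 = 0) (hyC : zp δ y ∈ C)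
    (hnear : ∃ z ∈ C, Near p k S (H192.As S w) δ τ z) :
    ∃ x ∈ H192.ro '' arcV p k (n - 1),
      Cn (StM 0) (FqC p k S (H192.As S w) δ ↑PE C τ ∪ eo p k S w τ) y x := by
  obtain ⟨v₁, h1, h2⟩ := cellP_sq hδ hp hS hk hkn (H192.As_subset S w) hτ hq hPE hdeep hfr hC hOm
    hRO hCP hy hyC hnear
  have h3 := h2.mono (subset_union_left (t := eo p k S w τ))
  rcases h1 with ⟨i, hi, rfl⟩ | ⟨i, hi1, hi2, rfl⟩
  · obtain ⟨i', g1, g2, g3⟩ := H161.left_wired (p := p) (S := S) (k := k) (by omega) w i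
    obtain ⟨g4, -⟩ := pstep_cn (par_ro _) g3
    rw [H161.ls_sp] at g4
    have g5 : Cn (StM 0) (FqC p k S (H192.As S w) δ ↑PE C τ ∪ eo p k S w τ)
        (H192.ro (p i')) (H192.ro (run p k (H192.As S w) i).1) :=
      g4.mono fun v hv => Or.inr (H161.eo_mono w hi hv)
    exact ⟨_, ⟨_, ⟨i', g1, by omega, rfl⟩, rfl⟩, h3.trans (g5.symm (isSt_M 0))⟩
  · exact ⟨_, ⟨_, ⟨i, hi1, by omega, rfl⟩, rfl⟩, h3⟩

/-! ### Dual -/

/-- A lattice edge with exactly one enclosed face is an edge of the polygon. -/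
theorem edge_cases (hS : Encloses p S) {u : ℤ × ℤ} {r : Fin 4} (h1 : face u r ∈ S)
    (h2 : face u (r - 1) ∉ S) : ∃ i, p i = u ∧ p (i + 1) = u + dir r := (hS u r).2 ⟨h1, h2⟩

/-- The step between the two faces at an edge of the domain, the first one enclosed. -/
theorem st_faces (hp : IsPolygon p) (hS : Encloses p S) {u f g : ℤ × ℤ} {r : Fin 4}
    (h : (f = face u r ∧ g = face u (r - 1)) ∨ (g = face u r ∧ f = face u (r - 1)))
    (hf : f ∈ S) : (g ∈ S ∧ StF p S s(u, u + dir r) (Sum.inl f) (Sum.inl g)) ∨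
      (g ∉ S ∧ ∃ i, s(u, u + dir r) = pe p i ∧
        StF p S s(u, u + dir r) (Sum.inl f) (Sum.inr i)) := by
  by_cases hg : g ∈ S
  · left
    refine ⟨hg, ?_⟩
    rcases h with ⟨rfl, rfl⟩ | ⟨rfl, rfl⟩
    · exact Or.inl ⟨u, r, rfl, hf, hg, rfl, rfl⟩
    · exact (isSt_F hp hS).symm _ _ _ (Or.inl ⟨u, r, rfl, hg, hf, rfl, rfl⟩)
  · right
    refine ⟨hg, ?_⟩
    rcases h with ⟨rfl, rfl⟩ | ⟨rfl, rfl⟩
    · obtain ⟨i, hi1, hi2⟩ := edge_cases hS hf hg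
      have h3 : s(u, u + dir r) = pe p i := by rw [pe, hi1, hi2]
      refine ⟨i, h3, Or.inr (Or.inl ⟨i, h3, ?_, rfl⟩)⟩
      have h4 : r = ro p i := by
        have h5 := ro_spec hp i
        rw [hi2, hi1] at h5
        exact add_dir_inj h5
      rw [fi, hi1, ← h4]
    · have e1 : face (u + dir r) (r + 2) = face u (r - 1) := face_right u r
      have e2 : face (u + dir r) (r + 2 - 1) = face u r := by
        have : r + 2 - 1 = r + 1 := by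
          clear hf hg e1
          revert r; decide
        rw [this, face_left]
      obtain ⟨i, hi1, hi2⟩ := edge_cases hS (u := u + dir r) (r := r + 2) (by rwa [e1])
        (by rwa [e2])
      rw [dir_add_two'] at hi2
      have h3 : s(u, u + dir r) = pe p i := by rw [pe, hi1, hi2, Sym2.eq_swap]
      refine ⟨i, h3, Or.inr (Or.inl ⟨i, h3, ?_, rfl⟩)⟩
      have h4 : r + 2 = ro p i := by
        have h5 := ro_spec hp i
        rw [hi2, hi1] at h5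
        refine add_dir_inj (v := u + dir r) ?_
        rw [← h5, dir_add_two']
      rw [fi, hi1, ← h4, e1]

theorem dst_cn (hδ : 0 < δ) (hp : IsPolygon p) (hS : Encloses p S) {D : Set (ℤ × ℤ)} {C : Set ℂ}
    {τ : ℕ} {f₀ f₁ : ℤ × ℤ} (h0 : f₀ ∈ S)
    (h : Relation.ReflTransGen (fun f g => f ∈ S ∧ DSt p k S A δ (Ed D) C τ f g) f₀ f₁) :
    (f₁ ∈ S ∧ Cn (StQ p S) (FqC p k S A δ D C τ) (Sum.inl f₀) (Sum.inl f₁)) ∨
      (f₁ ∉ S ∧ ∃ i, sq (pe p i) ∈ FqC p k S A δ D C τ ∧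
        Cn (StQ p S) (FqC p k S A δ D C τ) (Sum.inl f₀) (Sum.inr i)) := by
  induction h with
  | refl => exact Or.inl ⟨h0, Cn.refl _ _⟩
  | @tail b c _ hbc ih =>
    obtain ⟨hb, u, r, h1, h2, h3⟩ := hbc
    rcases ih with ⟨-, ih⟩ | ⟨ih, -⟩
    · have hm := mem_FqC hδ h2 h3
      have he : ed (sq s(u, u + dir r)) = s(u, u + dir r) := ed_sq ⟨u, r, rfl⟩
      rcases st_faces hp hS h1 hb with ⟨g1, g2⟩ | ⟨g1, i, g2, g3⟩
      · refine Or.inl ⟨g1, ih.tail ⟨_, hm, ?_⟩⟩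
        rw [StQ, he]
        exact g2
      · refine Or.inr ⟨g1, i, ?_, ih.tail ⟨_, hm, ?_⟩⟩
        · rw [← g2]
          exact hm
        · rw [StQ, he]
          exact g3
    · exact absurd hb ih

theorem cf_zp (f : ℤ × ℤ) : zp δ (rf f) = cf δ f := by
  rw [H161.zp_rf, cf]
  congr 2
  apply Complex.ext <;> simp

/-- **CELL, dual, in the squares model.** -/
theorem cellD_sq (hδ : 0 < δ) (hp : IsPolygon p) (hS : Encloses p S) (hk : 0 < k)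
    (hkn : k + 1 < n) (hA : A ⊆ edges S) {τ : ℕ} (hτ : τ ≤ len p k A) {m : ℕ}
    {q : ZMod m → ℤ × ℤ} {PE : Finset (ℤ × ℤ)} (hq : IsPolygon q) (hPE : Encloses q PE)
    (hdeep : DeepQ S ↑PE) (hfr : ∀ i < τ, sq (ahead (run p k A i)) ∉ PE) {C : Set ℂ}
    (hC : IsPreconnected C) (hOm : C ⊆ Om δ S) (hLO : Disjoint C (LO p k A δ τ))
    (hCP : ∀ z ∈ C, ∃ v, v ∉ PE ∧ z ∈ SqD δ v) {y : ℤ × ℤ}
    (hy : (y.1 + y.2) % 2 = 1) (hyS : rf' y ∈ S) (hyC : zp δ y ∈ C)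
    (hnear : ∃ z ∈ C, Near p k S A δ τ z) :
    (∃ i ≤ τ, fc (run p k A i) ∈ S ∧
      Cn (StQ p S) (FqC p k S A δ ↑PE C τ) (dmo n y) (Sum.inl (fc (run p k A i)))) ∨
    ∃ i, sq (pe p i) ∈ FqC p k S A δ ↑PE C τ ∧
      Cn (StQ p S) (FqC p k S A δ ↑PE C τ) (dmo n y) (Sum.inr i) := by
  have ey : rf (rf' y) = y := rf_rf' (by rw [Int.not_even_iff]; exact hy)
  obtain ⟨f₁, h1, h2⟩ := H161.Cell.s_cellD hδ hp hS hk hkn hA τ hτ (Ed ↑PE) (deep_Ed hdeep)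
    (fun i hi h => hfr i hi h.2) C hC hOm hLO (avo_Ed hq hPE hδ hCP) (rf' y) hyS
    (by rw [← cf_zp, ey]; exact hyC) hnear
  rcases dst_cn hδ hp hS hyS h2 with ⟨h3, h4⟩ | ⟨-, h4⟩
  · rcases h1 with ⟨i, hi, rfl⟩ | h1
    · exact Or.inl ⟨i, hi, h3, h4⟩
    · exact absurd h3 h1
  · exact Or.inr h4

/-- Paths of odd sites as paths of dual sites of the domain, to an enclosed face. -/
theorem odd_path (hp : IsPolygon p) (hS : Encloses p S) {F : Set (ℤ × ℤ)} {x y : ℤ × ℤ}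
    (h : Cn (StM 1) F x y) (hy : rf' y ∈ S) :
    (rf' x ∈ S ∧ Cn (StQ p S) F (dmo n x) (dmo n y)) ∨
      ∃ i, sq (pe p i) ∈ F ∧ Cn (StQ p S) F (Sum.inr i) (dmo n y) := by
  induction h with
  | refl => exact Or.inl ⟨hy, Cn.refl _ _⟩
  | @tail b c _ hbc ih =>
    obtain ⟨v, hv, hs⟩ := hbc
    obtain ⟨u, r, hu⟩ := isEdge_ed v
    have h1 : (rf' c = face u r ∧ rf' b = face u (r - 1)) ∨
        (rf' b = face u r ∧ rf' c = face u (r - 1)) := by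
      rcases stM1_iff hu hs with ⟨rfl, rfl⟩ | ⟨rfl, rfl⟩
      · exact Or.inr ⟨rf'_rf _, rf'_rf _⟩
      · exact Or.inl ⟨rf'_rf _, rf'_rf _⟩
    rcases st_faces hp hS h1 hy with ⟨g1, g2⟩ | ⟨g1, i, g2, g3⟩
    · have g4 : StQ p S v (dmo n b) (dmo n c) := by
        refine (isSt_F hp hS).symm _ _ _ ?_
        rw [hu]
        exact g2
      rcases ih g1 with ⟨h2, h3⟩ | ⟨i, h2, h3⟩
      · exact Or.inl ⟨h2, h3.tail ⟨v, hv, g4⟩⟩
      · exact Or.inr ⟨i, h2, h3.tail ⟨v, hv, g4⟩⟩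
    · right
      refine ⟨i, ?_, Relation.ReflTransGen.single ⟨v, hv, ?_⟩⟩
      · rw [← g2, ← hu, sq_ed]
        exact hv
      · refine (isSt_F hp hS).symm _ _ _ ?_
        rw [hu]
        exact g3

/-- The visited faces of the domain hang on the outer sides by the explored closed squares. -/
theorem visited_free (hp : IsPolygon p) (hS : Encloses p S) (w : Cfg) (j : ℕ)
    (h : fc (run p k (H192.As S w) j) ∈ S) :
    ∃ i, sq (pe p i) ∈ ec p k S w j ∧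
      Cn (StQ p S) (ec p k S w j) (Sum.inr i) (Sum.inl (fc (run p k (H192.As S w) j))) := by
  obtain ⟨j', -, h2, h3⟩ := H161.right_free (k := k) hp hS w j
  rw [H161.rs_sp, H161.rs_sp] at h3
  obtain ⟨h4, -⟩ := pstep_cn (par_rf _) h3
  rcases odd_path hp hS h4 (by rw [rf'_rf]; exact h) with ⟨h5, -⟩ | ⟨i, h5, h6⟩
  · rw [rf'_rf] at h5
    exact absurd h5 h2
  · rw [dmo, rf'_rf] at h6
    exact ⟨i, h5, h6⟩

/-- **CELL, dual, to the outer side of an edge of the polygon which is not wired** (the square of this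
edge is a square of `FqC` or an explored closed square). -/
theorem cellD_free (hδ : 0 < δ) (hp : IsPolygon p) (hS : Encloses p S) (hk : 0 < k)
    (hkn : k + 1 < n) (w : Cfg) {τ : ℕ} (hτ : τ ≤ len p k (H192.As S w)) {m : ℕ}
    {q : ZMod m → ℤ × ℤ} {PE : Finset (ℤ × ℤ)} (hq : IsPolygon q) (hPE : Encloses q PE)
    (hdeep : DeepQ S ↑PE) (hfr : ∀ i < τ, sq (ahead (run p k (H192.As S w) i)) ∉ PE) {C : Set ℂ}
    (hC : IsPreconnected C) (hOm : C ⊆ Om δ S)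
    (hLO : Disjoint C (LO p k (H192.As S w) δ τ))
    (hCP : ∀ z ∈ C, ∃ v, v ∉ PE ∧ z ∈ SqD δ v) {y : ℤ × ℤ}
    (hy : (y.1 + y.2) % 2 = 1) (hyS : rf' y ∈ S) (hyC : zp δ y ∈ C)
    (hnear : ∃ z ∈ C, Near p k S (H192.As S w) δ τ z) :
    ∃ i, sq (pe p i) ∈ FqC p k S (H192.As S w) δ ↑PE C τ ∪ ec p k S w τ ∧
      Cn (StQ p S) (FqC p k S (H192.As S w) δ ↑PE C τ ∪ ec p k S w τ) (dmo n y) (Sum.inr i) := by
  rcases cellD_sq hδ hp hS hk hkn (H192.As_subset S w) hτ hq hPE hdeep hfr hC hOm hLO hCP hy hyS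
    hyC hnear with ⟨i, hi, h1, h2⟩ | ⟨i, h1, h2⟩
  · obtain ⟨i', h3, h4⟩ := visited_free (k := k) hp hS w i h1
    have h5 : Cn (StQ p S) (FqC p k S (H192.As S w) δ ↑PE C τ ∪ ec p k S w τ) (Sum.inr i')
        (Sum.inl (fc (run p k (H192.As S w) i))) :=
      h4.mono fun v hv => Or.inr (H161.ec_mono w hi hv)
    exact ⟨i', Or.inr (H161.ec_mono w hi h3), (h2.mono subset_union_left).trans
      (h5.symm (isSt_Q hp hS))⟩
  · exact ⟨i, Or.inl h1, h2.mono subset_union_left⟩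

/-- If the closure of `C` meets the path or the boundary then `C` has a point which is near. -/
theorem near_of_closure (hδ : 0 < δ) {C : Set ℂ} {τ : ℕ} {x : ℂ} (hx : x ∈ closure C)
    (h : x ∈ pl p k δ A '' Icc 0 (τ + 1) ∪ frontier (Om δ S)) :
    ∃ z ∈ C, Near p k S A δ τ z := by
  obtain ⟨z, hz, hd⟩ := Metric.mem_closure_iff.1 hx (δ / 16) (by positivity)
  rw [dist_comm, dist_eq_norm] at hd
  have a1 := (Complex.abs_re_le_norm (z - x)).trans_lt hd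
  have a2 := (Complex.abs_im_le_norm (z - x)).trans_lt hd
  rw [Complex.sub_re] at a1
  rw [Complex.sub_im] at a2
  exact ⟨z, hz, x, h, a1, a2⟩

end Vale.Agent.P167.H634
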