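import Mathlib

/-!
# P167, block CG3 (CELL): a connected set covered by boxes and diamonds of `ℤ²` gives a path
-/

open Set Metric

namespace Vale.Agent.P167.H634

/-- Steps to the east and to the north. -/
def st (h : Bool) : ℤ × ℤ := if h then (1, 0) else (0, 1)

/-- Closed box around a lattice point. -/
def B1 (ρ : ℝ) (v : ℤ × ℤ) : Set ℂ := {z | |z.re - v.1| ≤ ρ ∧ |z.im - v.2| ≤ ρ}

/-- Closed diamond of an edge. -/
def D1 (u v : ℤ × ℤ) : Set ℂ := {z | |z.re - (u.1 + v.1) / 2| + |z.im - (u.2 + v.2) / 2| ≤ 1 / 2}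

theorem D1_comm (u v : ℤ × ℤ) : D1 u v = D1 v u := by
  unfold D1
  simp only [add_comm]

theorem isClosed_B1 (ρ : ℝ) (v : ℤ × ℤ) : IsClosed (B1 ρ v) := by
  have h1 : IsClosed {z : ℂ | |z.re - v.1| ≤ ρ} := isClosed_le (by fun_prop) continuous_const
  have h2 : IsClosed {z : ℂ | |z.im - v.2| ≤ ρ} := isClosed_le (by fun_prop) continuous_const
  exact h1.inter h2

theorem isClosed_D1 (u v : ℤ × ℤ) : IsClosed (D1 u v) := by
  have h1 : IsClosed {z : ℂ | |z.re - (u.1 + v.1) / 2| + |z.im - (u.2 + v.2) / 2| ≤ 1 / 2} :=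
    isClosed_le (by fun_prop) continuous_const
  exact h1

theorem mem_D1_h {u : ℤ × ℤ} {z : ℂ} : z ∈ D1 u (u + (1, 0)) ↔
    |z.re - (u.1 + 1 / 2)| + |z.im - u.2| ≤ 1 / 2 := by
  unfold D1
  simp only [Prod.fst_add, Prod.snd_add, mem_ofPred_eq]
  push_cast
  have e1 : ((u.1 : ℝ) + (u.1 + 1)) / 2 = u.1 + 1 / 2 := by ring
  have e2 : ((u.2 : ℝ) + (u.2 + 0)) / 2 = u.2 := by ring
  rw [e1, e2]

theorem mem_D1_v {u : ℤ × ℤ} {z : ℂ} : z ∈ D1 u (u + (0, 1)) ↔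
    |z.re - u.1| + |z.im - (u.2 + 1 / 2)| ≤ 1 / 2 := by
  unfold D1
  simp only [Prod.fst_add, Prod.snd_add, mem_ofPred_eq]
  push_cast
  have e1 : ((u.1 : ℝ) + (u.1 + 0)) / 2 = u.1 := by ring
  have e2 : ((u.2 : ℝ) + (u.2 + 1)) / 2 = u.2 + 1 / 2 := by ring
  rw [e1, e2]

theorem int_lt_of {a b : ℤ} {x : ℝ} (h : (a : ℝ) < b + x) (hx : x ≤ 1) : a ≤ b := by
  have : (a : ℝ) < b + 1 := by linarith
  have h2 : a < b + 1 := by exact_mod_cast this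
  omega

theorem B1_B1 {ρ : ℝ} (hρ : ρ < 1 / 2) {v v' : ℤ × ℤ} {z : ℂ} (h : z ∈ B1 ρ v)
    (h' : z ∈ B1 ρ v') : v = v' := by
  obtain ⟨h1, h2⟩ := h
  obtain ⟨h3, h4⟩ := h'
  rw [abs_le] at h1 h2 h3 h4
  apply Prod.ext
  · apply le_antisymm
    · exact int_lt_of (x := 1) (by linarith [h1.1, h3.2]) le_rfl
    · exact int_lt_of (x := 1) (by linarith [h1.2, h3.1]) le_rfl
  · apply le_antisymm
    · exact int_lt_of (x := 1) (by linarith [h2.1, h4.2]) le_rfl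
    · exact int_lt_of (x := 1) (by linarith [h2.2, h4.1]) le_rfl

theorem B1_D1 {ρ : ℝ} (hρ : ρ < 1 / 2) {v u : ℤ × ℤ} {h : Bool} {z : ℂ} (hz : z ∈ B1 ρ v)
    (hz' : z ∈ D1 u (u + st h)) : v = u ∨ v = u + st h := by
  obtain ⟨h1, h2⟩ := hz
  rw [abs_le] at h1 h2
  cases h
  · rw [show st false = (0, 1) from rfl] at hz' ⊢
    rw [mem_D1_v] at hz'
    have a1 := abs_le.1 (le_trans (le_add_of_nonneg_right (abs_nonneg _)) hz')
    have a2 := abs_le.1 (le_trans (le_add_of_nonneg_left (abs_nonneg _)) hz')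
    have b1 : v.1 ≤ u.1 := int_lt_of (x := 1) (by linarith [h1.1, a1.2]) le_rfl
    have b2 : u.1 ≤ v.1 := int_lt_of (x := 1) (by linarith [h1.2, a1.1]) le_rfl
    have b3 : v.2 ≤ u.2 + 1 := int_lt_of (x := 1) (by push_cast; linarith [h2.1, a2.2]) le_rfl
    have b4 : u.2 ≤ v.2 := int_lt_of (x := 1) (by linarith [h2.2, a2.1]) le_rfl
    rcases eq_or_ne v.2 u.2 with h | h
    · left; exact Prod.ext (by omega) h
    · right
      apply Prod.ext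
      · simp only [Prod.fst_add]; omega
      · simp only [Prod.snd_add]; omega
  · rw [show st true = (1, 0) from rfl] at hz' ⊢
    rw [mem_D1_h] at hz'
    have a1 := abs_le.1 (le_trans (le_add_of_nonneg_right (abs_nonneg _)) hz')
    have a2 := abs_le.1 (le_trans (le_add_of_nonneg_left (abs_nonneg _)) hz')
    have b1 : v.2 ≤ u.2 := int_lt_of (x := 1) (by linarith [h2.1, a2.2]) le_rfl
    have b2 : u.2 ≤ v.2 := int_lt_of (x := 1) (by linarith [h2.2, a2.1]) le_rfl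
    have b3 : v.1 ≤ u.1 + 1 := int_lt_of (x := 1) (by push_cast; linarith [h1.1, a1.2]) le_rfl
    have b4 : u.1 ≤ v.1 := int_lt_of (x := 1) (by linarith [h1.2, a1.1]) le_rfl
    rcases eq_or_ne v.1 u.1 with h | h
    · left; exact Prod.ext h (by omega)
    · right
      apply Prod.ext
      · simp only [Prod.fst_add]; omega
      · simp only [Prod.snd_add]; omega

/-- The centre of a face. -/
noncomputable def c1 (f : ℤ × ℤ) : ℂ := ⟨f.1 + 1 / 2, f.2 + 1 / 2⟩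

/-- Two horizontal diamonds. -/
theorem D1_hh {u u' : ℤ × ℤ} {z : ℂ} (h : z ∈ D1 u (u + (1, 0))) (h' : z ∈ D1 u' (u' + (1, 0))) :
    u' = u ∨ u' = u + (1, 0) ∨ u = u' + (1, 0) ∨ (u' = u + (0, 1) ∧ z = c1 u) ∨
      (u = u' + (0, 1) ∧ z = c1 u') := by
  rw [mem_D1_h] at h h'
  have t1 : |((u.1 : ℝ) + 1 / 2) - (u'.1 + 1 / 2)| ≤ |z.re - (u.1 + 1 / 2)| +
      |z.re - (u'.1 + 1 / 2)| := by
    have := abs_sub_le ((u.1 : ℝ) + 1 / 2) z.re (u'.1 + 1 / 2)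
    rwa [abs_sub_comm ((u.1 : ℝ) + 1 / 2) z.re] at this
  have t2 : |(u.2 : ℝ) - u'.2| ≤ |z.im - u.2| + |z.im - u'.2| := by
    have := abs_sub_le (u.2 : ℝ) z.im u'.2
    rwa [abs_sub_comm (u.2 : ℝ) z.im] at this
  have t3 : |(u.1 : ℝ) - u'.1| + |(u.2 : ℝ) - u'.2| ≤ 1 := by
    have e : ((u.1 : ℝ) + 1 / 2) - (u'.1 + 1 / 2) = u.1 - u'.1 := by ring
    rw [e] at t1
    linarith
  have t4 : |u.1 - u'.1| + |u.2 - u'.2| ≤ 1 := by exact_mod_cast t3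
  have key : ∀ w : ℤ × ℤ, |z.re - (w.1 + 1 / 2)| + |z.im - w.2| ≤ 1 / 2 →
      |z.re - (w.1 + 1 / 2)| + |z.im - (w.2 + 1)| ≤ 1 / 2 → z = c1 w := by
    intro w h1 h2
    have s1 : |((w.2 : ℝ) + 1) - w.2| ≤ |z.im - (w.2 + 1)| + |z.im - w.2| := by
      have := abs_sub_le ((w.2 : ℝ) + 1) z.im w.2
      rwa [abs_sub_comm ((w.2 : ℝ) + 1) z.im] at this
    have e : ((w.2 : ℝ) + 1) - w.2 = 1 := by ring
    rw [e, abs_one] at s1
    have s2 : |z.re - (w.1 + 1 / 2)| = 0 := le_antisymm (by linarith) (abs_nonneg _)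
    have s3 : |z.im - w.2| ≤ 1 / 2 := by linarith
    have s4 : |z.im - (w.2 + 1)| ≤ 1 / 2 := by linarith
    rw [abs_le] at s3 s4
    have s5 := abs_eq_zero.1 s2
    apply Complex.ext
    · show z.re = w.1 + 1 / 2
      linarith
    · show z.im = w.2 + 1 / 2
      linarith [s3.2, s4.1]
  have t5 : u.1 - u'.1 = 0 ∨ u.2 - u'.2 = 0 := by
    by_contra hcon
    push Not at hcon
    have := Int.one_le_abs hcon.1
    have := Int.one_le_abs hcon.2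
    omega
  rcases t5 with t5 | t5
  · rw [t5, abs_zero, zero_add, abs_le] at t4
    have e1 : u.1 = u'.1 := by omega
    rcases (by omega : u.2 = u'.2 ∨ u'.2 = u.2 + 1 ∨ u.2 = u'.2 + 1) with h2 | h2 | h2
    · exact Or.inl (Prod.ext e1.symm h2.symm)
    · refine Or.inr (Or.inr (Or.inr (Or.inl ⟨Prod.ext (by simp [e1]) (by simp [h2]), ?_⟩)))
      refine key u h ?_
      rw [← e1, h2] at h'
      push_cast at h'
      exact h'
    · refine Or.inr (Or.inr (Or.inr (Or.inr ⟨Prod.ext (by simp [e1]) (by simp [h2]), ?_⟩)))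
      refine key u' h' ?_
      rw [e1, h2] at h
      push_cast at h
      exact h
  · rw [t5, abs_zero, add_zero, abs_le] at t4
    rcases (by omega : u.1 = u'.1 ∨ u'.1 = u.1 + 1 ∨ u.1 = u'.1 + 1) with h2 | h2 | h2
    · exact Or.inl (Prod.ext h2.symm (by omega))
    · exact Or.inr (Or.inl (Prod.ext (by simp [h2]) (by simp only [Prod.snd_add]; omega)))
    · exact Or.inr (Or.inr (Or.inl (Prod.ext (by simp [h2]) (by simp only [Prod.snd_add]; omega))))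

/-- Two vertical diamonds. -/
theorem D1_vv {u u' : ℤ × ℤ} {z : ℂ} (h : z ∈ D1 u (u + (0, 1))) (h' : z ∈ D1 u' (u' + (0, 1))) :
    u' = u ∨ u' = u + (0, 1) ∨ u = u' + (0, 1) ∨ (u' = u + (1, 0) ∧ z = c1 u) ∨
      (u = u' + (1, 0) ∧ z = c1 u') := by
  rw [mem_D1_v] at h h'
  have t1 : |(u.1 : ℝ) - u'.1| ≤ |z.re - u.1| + |z.re - u'.1| := by
    have := abs_sub_le (u.1 : ℝ) z.re u'.1
    rwa [abs_sub_comm (u.1 : ℝ) z.re] at this
  have t2 : |((u.2 : ℝ) + 1 / 2) - (u'.2 + 1 / 2)| ≤ |z.im - (u.2 + 1 / 2)| +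
      |z.im - (u'.2 + 1 / 2)| := by
    have := abs_sub_le ((u.2 : ℝ) + 1 / 2) z.im (u'.2 + 1 / 2)
    rwa [abs_sub_comm ((u.2 : ℝ) + 1 / 2) z.im] at this
  have t3 : |(u.1 : ℝ) - u'.1| + |(u.2 : ℝ) - u'.2| ≤ 1 := by
    have e : ((u.2 : ℝ) + 1 / 2) - (u'.2 + 1 / 2) = u.2 - u'.2 := by ring
    rw [e] at t2
    linarith
  have t4 : |u.1 - u'.1| + |u.2 - u'.2| ≤ 1 := by exact_mod_cast t3
  have key : ∀ w : ℤ × ℤ, |z.re - w.1| + |z.im - (w.2 + 1 / 2)| ≤ 1 / 2 →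
      |z.re - (w.1 + 1)| + |z.im - (w.2 + 1 / 2)| ≤ 1 / 2 → z = c1 w := by
    intro w h1 h2
    have s1 : |((w.1 : ℝ) + 1) - w.1| ≤ |z.re - (w.1 + 1)| + |z.re - w.1| := by
      have := abs_sub_le ((w.1 : ℝ) + 1) z.re w.1
      rwa [abs_sub_comm ((w.1 : ℝ) + 1) z.re] at this
    have e : ((w.1 : ℝ) + 1) - w.1 = 1 := by ring
    rw [e, abs_one] at s1
    have s2 : |z.im - (w.2 + 1 / 2)| = 0 := le_antisymm (by linarith) (abs_nonneg _)
    have s3 : |z.re - w.1| ≤ 1 / 2 := by linarith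
    have s4 : |z.re - (w.1 + 1)| ≤ 1 / 2 := by linarith
    rw [abs_le] at s3 s4
    have s5 := abs_eq_zero.1 s2
    apply Complex.ext
    · show z.re = w.1 + 1 / 2
      linarith [s3.2, s4.1]
    · show z.im = w.2 + 1 / 2
      linarith
  have t5 : u.1 - u'.1 = 0 ∨ u.2 - u'.2 = 0 := by
    by_contra hcon
    push Not at hcon
    have := Int.one_le_abs hcon.1
    have := Int.one_le_abs hcon.2
    omega
  rcases t5 with t5 | t5
  · rw [t5, abs_zero, zero_add, abs_le] at t4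
    rcases (by omega : u.2 = u'.2 ∨ u'.2 = u.2 + 1 ∨ u.2 = u'.2 + 1) with h2 | h2 | h2
    · exact Or.inl (Prod.ext (by omega) h2.symm)
    · exact Or.inr (Or.inl (Prod.ext (by simp only [Prod.fst_add]; omega) (by simp [h2])))
    · exact Or.inr (Or.inr (Or.inl (Prod.ext (by simp only [Prod.fst_add]; omega) (by simp [h2]))))
  · rw [t5, abs_zero, add_zero, abs_le] at t4
    have e1 : u.2 = u'.2 := by omega
    rcases (by omega : u.1 = u'.1 ∨ u'.1 = u.1 + 1 ∨ u.1 = u'.1 + 1) with h2 | h2 | h2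
    · exact Or.inl (Prod.ext h2.symm e1.symm)
    · refine Or.inr (Or.inr (Or.inr (Or.inl ⟨Prod.ext (by simp [h2]) (by simp [e1]), ?_⟩)))
      refine key u h ?_
      rw [← e1, h2] at h'
      push_cast at h'
      exact h'
    · refine Or.inr (Or.inr (Or.inr (Or.inr ⟨Prod.ext (by simp [h2]) (by simp [e1]), ?_⟩)))
      refine key u' h' ?_
      rw [e1, h2] at h
      push_cast at h
      exact h

/-- A horizontal and a vertical diamond. -/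
theorem D1_hv {u u' : ℤ × ℤ} {z : ℂ} (h : z ∈ D1 u (u + (1, 0))) (h' : z ∈ D1 u' (u' + (0, 1))) :
    u' = u ∨ u' = u + (1, 0) ∨ u' + (0, 1) = u ∨ u' + (0, 1) = u + (1, 0) := by
  rw [mem_D1_h] at h
  rw [mem_D1_v] at h'
  have t1 : |((u.1 : ℝ) + 1 / 2) - u'.1| ≤ |z.re - (u.1 + 1 / 2)| + |z.re - u'.1| := by
    have := abs_sub_le ((u.1 : ℝ) + 1 / 2) z.re u'.1
    rwa [abs_sub_comm ((u.1 : ℝ) + 1 / 2) z.re] at this
  have t2 : |(u.2 : ℝ) - (u'.2 + 1 / 2)| ≤ |z.im - u.2| + |z.im - (u'.2 + 1 / 2)| := by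
    have := abs_sub_le (u.2 : ℝ) z.im (u'.2 + 1 / 2)
    rwa [abs_sub_comm (u.2 : ℝ) z.im] at this
  have t3 : |((u.1 : ℝ) + 1 / 2) - u'.1| + |(u.2 : ℝ) - (u'.2 + 1 / 2)| ≤ 1 := by linarith
  have half : ∀ m : ℤ, (1 : ℝ) / 2 ≤ |(m : ℝ) + 1 / 2| := by
    intro m
    rcases le_or_gt 0 m with hm | hm
    · have : (0 : ℝ) ≤ m := by exact_mod_cast hm
      rw [abs_of_nonneg (by linarith)]
      linarith
    · have : (m : ℝ) ≤ -1 := by exact_mod_cast (by omega : m ≤ -1)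
      rw [abs_of_nonpos (by linarith)]
      linarith
  have a1 : (1 : ℝ) / 2 ≤ |((u.1 : ℝ) + 1 / 2) - u'.1| := by
    have := half (u.1 - u'.1)
    push_cast at this
    rwa [show ((u.1 : ℝ) + 1 / 2) - u'.1 = u.1 - u'.1 + 1 / 2 by ring]
  have a2 : (1 : ℝ) / 2 ≤ |(u.2 : ℝ) - (u'.2 + 1 / 2)| := by
    have := half (u'.2 - u.2)
    push_cast at this
    rw [abs_sub_comm]
    rwa [show ((u'.2 : ℝ) + 1 / 2) - u.2 = u'.2 - u.2 + 1 / 2 by ring]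
  have b1 := abs_le.1 (by linarith : |((u.1 : ℝ) + 1 / 2) - u'.1| ≤ 1 / 2)
  have b2 := abs_le.1 (by linarith : |(u.2 : ℝ) - (u'.2 + 1 / 2)| ≤ 1 / 2)
  have c1 : u'.1 ≤ u.1 + 1 := by
    have : (u'.1 : ℝ) ≤ u.1 + 1 := by linarith [b1.1]
    exact_mod_cast this
  have c2 : u.1 ≤ u'.1 := by
    have : (u.1 : ℝ) ≤ u'.1 := by linarith [b1.2]
    exact_mod_cast this
  have c3 : u.2 ≤ u'.2 + 1 := by
    have : (u.2 : ℝ) ≤ u'.2 + 1 := by linarith [b2.2]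
    exact_mod_cast this
  have c4 : u'.2 ≤ u.2 := by
    have : (u'.2 : ℝ) ≤ u.2 := by linarith [b2.1]
    exact_mod_cast this
  simp only [Prod.ext_iff, Prod.fst_add, Prod.snd_add]
  omega

/-- The centre of a face is in the diamonds of its sides. -/
theorem c1_mem (f : ℤ × ℤ) : c1 f ∈ D1 f (f + (1, 0)) ∧ c1 f ∈ D1 f (f + (0, 1)) ∧
    c1 f ∈ D1 (f + (0, 1)) (f + (0, 1) + (1, 0)) ∧ c1 f ∈ D1 (f + (1, 0)) (f + (1, 0) + (0, 1)) := by
  simp only [mem_D1_h, mem_D1_v, c1, Prod.fst_add, Prod.snd_add]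
  push_cast
  refine ⟨?_, ?_, ?_, ?_⟩
  · rw [show (f.1 : ℝ) + 1 / 2 - (f.1 + 1 / 2) = 0 by ring,
      show (f.2 : ℝ) + 1 / 2 - f.2 = 1 / 2 by ring]
    norm_num
  · rw [show (f.1 : ℝ) + 1 / 2 - f.1 = 1 / 2 by ring,
      show (f.2 : ℝ) + 1 / 2 - (f.2 + 1 / 2) = 0 by ring]
    norm_num
  · rw [show (f.1 : ℝ) + 1 / 2 - (f.1 + 0 + 1 / 2) = 0 by ring,
      show (f.2 : ℝ) + 1 / 2 - (f.2 + 1) = -(1 / 2) by ring]
    norm_num
  · rw [show (f.1 : ℝ) + 1 / 2 - (f.1 + 1) = -(1 / 2) by ring,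
      show (f.2 : ℝ) + 1 / 2 - (f.2 + 0 + 1 / 2) = 0 by ring]
    norm_num

/-- Step along an edge of `G` whose diamond meets `C`. -/
def R1 (G : Set (Sym2 (ℤ × ℤ))) (C : Set ℂ) (a b : ℤ × ℤ) : Prop :=
  (∃ h, b = a + st h ∨ a = b + st h) ∧ s(a, b) ∈ G ∧ (D1 a b ∩ C).Nonempty

theorem R1.symm {G : Set (Sym2 (ℤ × ℤ))} {C : Set ℂ} {a b : ℤ × ℤ} (h : R1 G C a b) :
    R1 G C b a := by
  obtain ⟨⟨r, hr⟩, h2, h3⟩ := h
  refine ⟨⟨r, hr.symm⟩, ?_, ?_⟩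
  · rw [Sym2.eq_swap]; exact h2
  · rw [D1_comm]; exact h3

/-- The cells attached to the lattice points of `T`. -/
def W1 (ρ : ℝ) (V V' : Finset (ℤ × ℤ)) (G : Set (Sym2 (ℤ × ℤ))) (T : Set (ℤ × ℤ)) : Set ℂ :=
  (⋃ v ∈ V, ⋃ (_ : v ∈ T), B1 ρ v) ∪
    ⋃ u ∈ V', ⋃ h : Bool, ⋃ (_ : s(u, u + st h) ∈ G ∧ u ∈ T), D1 u (u + st h)

theorem isClosed_W1 (ρ : ℝ) (V V' : Finset (ℤ × ℤ)) (G : Set (Sym2 (ℤ × ℤ))) (T : Set (ℤ × ℤ)) :
    IsClosed (W1 ρ V V' G T) := by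
  refine IsClosed.union ?_ ?_
  · refine isClosed_biUnion_finset fun v _ => ?_
    exact isClosed_iUnion_of_finite fun _ => isClosed_B1 _ _
  · refine isClosed_biUnion_finset fun v _ => ?_
    exact isClosed_iUnion_of_finite fun _ => isClosed_iUnion_of_finite fun _ => isClosed_D1 _ _

theorem mem_W1 {ρ : ℝ} {V V' : Finset (ℤ × ℤ)} {G : Set (Sym2 (ℤ × ℤ))} {T : Set (ℤ × ℤ)} {z : ℂ} :
    z ∈ W1 ρ V V' G T ↔ (∃ v ∈ V, v ∈ T ∧ z ∈ B1 ρ v) ∨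
      ∃ u ∈ V', ∃ h, (s(u, u + st h) ∈ G ∧ u ∈ T) ∧ z ∈ D1 u (u + st h) := by
  unfold W1
  simp only [mem_union, mem_iUnion, exists_prop]

/-- **The core of the CELL lemma.** -/
theorem core {C : Set ℂ} (hC : IsPreconnected C) {ρ : ℝ} (hρ : ρ < 1 / 2)
    {V V' : Finset (ℤ × ℤ)} {G : Set (Sym2 (ℤ × ℤ))}
    (cov : ∀ z ∈ C, (∃ v ∈ V, z ∈ B1 ρ v) ∨ ∃ u ∈ V', ∃ h, s(u, u + st h) ∈ G ∧
      z ∈ D1 u (u + st h))
    (opp1 : ∀ f : ℤ × ℤ, c1 f ∈ C → s(f, f + (1, 0)) ∈ G →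
      s(f + (0, 1), f + (0, 1) + (1, 0)) ∈ G →
      s(f, f + (0, 1)) ∈ G ∨ s(f + (1, 0), f + (1, 0) + (0, 1)) ∈ G)
    (opp2 : ∀ f : ℤ × ℤ, c1 f ∈ C → s(f, f + (0, 1)) ∈ G →
      s(f + (1, 0), f + (1, 0) + (0, 1)) ∈ G →
      s(f, f + (1, 0)) ∈ G ∨ s(f + (0, 1), f + (0, 1) + (1, 0)) ∈ G)
    {v₀ : ℤ × ℤ} (hv₀ : v₀ ∈ V) (h₀ : ∃ z ∈ C, z ∈ B1 ρ v₀) :
    (∀ v ∈ V, (∃ z ∈ C, z ∈ B1 ρ v) → Relation.ReflTransGen (R1 G C) v₀ v) ∧
      ∀ u ∈ V', ∀ h, s(u, u + st h) ∈ G → (∃ z ∈ C, z ∈ D1 u (u + st h)) →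
        Relation.ReflTransGen (R1 G C) v₀ u := by
  set T : Set (ℤ × ℤ) := {v | Relation.ReflTransGen (R1 G C) v₀ v} with hT
  have hTstep : ∀ {a b : ℤ × ℤ}, R1 G C a b → (a ∈ T ↔ b ∈ T) := by
    intro a b h
    exact ⟨fun ha => Relation.ReflTransGen.tail ha h, fun hb => Relation.ReflTransGen.tail hb h.symm⟩
  have hdiam : ∀ {u : ℤ × ℤ} {h : Bool} {z : ℂ}, z ∈ C → s(u, u + st h) ∈ G →
      z ∈ D1 u (u + st h) → (u ∈ T ↔ u + st h ∈ T) := fun {u h z} hz hG hD =>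
    hTstep ⟨⟨h, Or.inl rfl⟩, hG, ⟨z, hD, hz⟩⟩
  -- four corners of a face
  have hface1 : ∀ f : ℤ × ℤ, c1 f ∈ C → s(f, f + (1, 0)) ∈ G →
      s(f + (0, 1), f + (0, 1) + (1, 0)) ∈ G → (f ∈ T ↔ f + (0, 1) ∈ T) := by
    intro f hf g1 g2
    obtain ⟨m1, m2, m3, m4⟩ := c1_mem f
    have e1 : f ∈ T ↔ f + (1, 0) ∈ T := hdiam (h := true) hf g1 m1
    have e3 : f + (0, 1) ∈ T ↔ f + (0, 1) + (1, 0) ∈ T := hdiam (h := true) hf g2 m3
    rcases opp1 f hf g1 g2 with g | g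
    · exact hdiam (h := false) hf g m2
    · have e4 : f + (1, 0) ∈ T ↔ f + (1, 0) + (0, 1) ∈ T := hdiam (h := false) hf g m4
      have e5 : f + (1, 0) + (0, 1) = f + (0, 1) + (1, 0) := by abel
      rw [e1, e4, e5, ← e3]
  have hface2 : ∀ f : ℤ × ℤ, c1 f ∈ C → s(f, f + (0, 1)) ∈ G →
      s(f + (1, 0), f + (1, 0) + (0, 1)) ∈ G → (f ∈ T ↔ f + (1, 0) ∈ T) := by
    intro f hf g1 g2
    obtain ⟨m1, m2, m3, m4⟩ := c1_mem f
    have e1 : f ∈ T ↔ f + (0, 1) ∈ T := hdiam (h := false) hf g1 m2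
    have e3 : f + (1, 0) ∈ T ↔ f + (1, 0) + (0, 1) ∈ T := hdiam (h := false) hf g2 m4
    rcases opp2 f hf g1 g2 with g | g
    · exact hdiam (h := true) hf g m1
    · have e4 : f + (0, 1) ∈ T ↔ f + (0, 1) + (1, 0) ∈ T := hdiam (h := true) hf g m3
      have e5 : f + (1, 0) + (0, 1) = f + (0, 1) + (1, 0) := by abel
      rw [e1, e4, ← e5, ← e3]
  -- the two classes do not meet
  have hdis : ¬ (C ∩ (W1 ρ V V' G T ∩ W1 ρ V V' G Tᶜ)).Nonempty := by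
    rintro ⟨z, hz, h1, h2⟩
    rw [mem_W1] at h1 h2
    rcases h1 with ⟨v, -, hvT, hv⟩ | ⟨u, -, h, ⟨hG, huT⟩, hu⟩ <;>
      rcases h2 with ⟨v', -, hvT', hv'⟩ | ⟨u', -, h', ⟨hG', huT'⟩, hu'⟩
    · exact hvT' (B1_B1 hρ hv hv' ▸ hvT)
    · rcases B1_D1 hρ hv hu' with e | e
      · exact huT' (e ▸ hvT)
      · exact huT' ((hdiam hz hG' hu').2 (e ▸ hvT))
    · rcases B1_D1 hρ hv' hu with e | e
      · exact hvT' (e ▸ huT)
      · exact hvT' (e ▸ (hdiam hz hG hu).1 huT)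
    · have k1 := hdiam hz hG hu
      have k2 := hdiam hz hG' hu'
      cases h <;> cases h'
      · rw [show st false = (0, 1) from rfl] at *
        rcases D1_vv hu hu' with e | e | e | ⟨e, hc⟩ | ⟨e, hc⟩
        · exact huT' (e ▸ huT)
        · exact huT' (e ▸ k1.1 huT)
        · exact huT' (k2.2 (e ▸ huT))
        · subst hc
          rw [e] at hG' huT'
          exact huT' ((hface2 u hz hG hG').1 huT)
        · subst hc
          rw [e] at hG huT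
          exact huT' ((hface2 u' hz hG' hG).2 huT)
      · rw [show st false = (0, 1) from rfl, show st true = (1, 0) from rfl] at *
        rcases D1_hv hu' hu with e | e | e | e
        · exact huT' (e ▸ huT)
        · exact huT' (k2.2 (e ▸ huT))
        · exact huT' (e ▸ k1.1 huT)
        · exact huT' (k2.2 (e ▸ k1.1 huT))
      · rw [show st false = (0, 1) from rfl, show st true = (1, 0) from rfl] at *
        rcases D1_hv hu hu' with e | e | e | e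
        · exact huT' (e ▸ huT)
        · exact huT' (e ▸ k1.1 huT)
        · exact huT' (k2.2 (e ▸ huT))
        · exact huT' (k2.2 (e ▸ k1.1 huT))
      · rw [show st true = (1, 0) from rfl] at *
        rcases D1_hh hu hu' with e | e | e | ⟨e, hc⟩ | ⟨e, hc⟩
        · exact huT' (e ▸ huT)
        · exact huT' (e ▸ k1.1 huT)
        · exact huT' (k2.2 (e ▸ huT))
        · subst hc
          rw [e] at hG' huT'
          exact huT' ((hface1 u hz hG hG').1 huT)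
        · subst hc
          rw [e] at hG huT
          exact huT' ((hface1 u' hz hG' hG).2 huT)
  have hcovW : C ⊆ W1 ρ V V' G T ∪ W1 ρ V V' G Tᶜ := by
    intro z hz
    rcases cov z hz with ⟨v, hv, h1⟩ | ⟨u, hu, h, h1, h2⟩
    · by_cases hvT : v ∈ T
      · exact Or.inl (mem_W1.2 (Or.inl ⟨v, hv, hvT, h1⟩))
      · exact Or.inr (mem_W1.2 (Or.inl ⟨v, hv, hvT, h1⟩))
    · by_cases huT : u ∈ T
      · exact Or.inl (mem_W1.2 (Or.inr ⟨u, hu, h, ⟨h1, huT⟩, h2⟩))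
      · exact Or.inr (mem_W1.2 (Or.inr ⟨u, hu, h, ⟨h1, huT⟩, h2⟩))
  have hne : (C ∩ W1 ρ V V' G T).Nonempty := by
    obtain ⟨z, hz, h1⟩ := h₀
    exact ⟨z, hz, mem_W1.2 (Or.inl ⟨v₀, hv₀, Relation.ReflTransGen.refl, h1⟩)⟩
  have hfin : ¬ (C ∩ W1 ρ V V' G Tᶜ).Nonempty := fun hne' =>
    hdis (isPreconnected_closed_iff.1 hC _ _ (isClosed_W1 _ _ _ _ _) (isClosed_W1 _ _ _ _ _)
      hcovW hne hne')
  constructor
  · rintro v hv ⟨z, hz, h1⟩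
    by_contra hcon
    exact hfin ⟨z, hz, mem_W1.2 (Or.inl ⟨v, hv, hcon, h1⟩)⟩
  · rintro u hu h h1 ⟨z, hz, h2⟩
    by_contra hcon
    exact hfin ⟨z, hz, mem_W1.2 (Or.inr ⟨u, hu, h, ⟨h1, hcon⟩, h2⟩)⟩

end Vale.Agent.P167.H634
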