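import Vale.Agent.P167.H634.CellR
import Vale.Agent.P167.H161.Cex

/-!
# P167, block CONT-ASM: the setting `H531.Setg` from the inputs of `H531/PosDefs`

* `zp_Dsq`: the corners of a square are in its closed diamond;
* `rd_far`: a read square has no corner in common with the squares of `PE`, of the cut and of the box;
* `setg_of`: the structure `Setg` of `H531/Hcmp`.
-/

open Set Metric

namespace Vale.Agent.P167.H634

open Vale.Agent.P167.E6 Vale.Agent.P167.E2 Vale.Agent.P167.H531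
open Vale.Agent.P167.H161 (zp Rd)
open Vale.Agent.P167.H192 (rf rf' sq ed IsEdge ed_sq sq_ed ed_inj isEdge_ed even_ro odd_rf
  ro_inj ro_ro' rf_rf' rf'_rf sq_mk ro_dir isEdge_edges dq mem_dq)
open Vale.Agent.P164 (loewnerDomain Zf)

variable {n m : ℕ} {p : ZMod n → ℤ × ℤ} {k : ℕ} {S : Finset (ℤ × ℤ)}
  {A : Finset (Sym2 (ℤ × ℤ))} {δ : ℝ} {j : ℕ} {ψ : ℂ → ℂ} {W : ℝ → ℝ} {t : ℝ}
  {T R Rd' cd Y : ℝ} {q : ZMod m → ℤ × ℤ} {PE Kc Bb B : Finset (ℤ × ℤ)} {a l jf : ℕ}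
  {ε h u rc cb : ℝ} {κ ω₀ : Cfg}

/-- `x` is a corner of the square `v`. -/
def Cnr (v x : ℤ × ℤ) : Prop := (x.1 = v.1 ∨ x.1 = v.1 + 1) ∧ (x.2 = v.2 ∨ x.2 = v.2 + 1)

theorem cnr_self (v : ℤ × ℤ) : Cnr v v := ⟨Or.inl rfl, Or.inl rfl⟩

theorem cnr_of_stM {c : ℤ} {v x y : ℤ × ℤ} (h : StM c v x y) : Cnr v x := by
  obtain ⟨h1, h2, h3, -⟩ := h
  rw [Prod.ext_iff] at h1
  simp only at h1
  unfold Cnr
  omega

theorem cnr_of_stM' {c : ℤ} {v x y : ℤ × ℤ} (h : StM c v x y) : Cnr v y := by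
  obtain ⟨h1, h2, h3, -⟩ := h
  rw [Prod.ext_iff] at h1
  simp only at h1
  unfold Cnr
  omega

theorem stM_of_cnr {v x : ℤ × ℤ} (h : Cnr v x) {c : ℤ} (hc : (x.1 + x.2) % 2 = c) :
    StM c v (2 * v.1 + 1 - x.1, 2 * v.2 + 1 - x.2) x := by
  unfold Cnr at h
  unfold StM
  rw [Prod.ext_iff]
  simp only
  omega

theorem cnr_face (x : ℤ × ℤ) (r : Fin 4) : Cnr (face x r) x := by
  have key : ∀ r : Fin 4, Cnr (face x r) x := by
    refine forall4 ?_ ?_ ?_ ?_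
    · rw [face0]; exact ⟨Or.inl rfl, Or.inl rfl⟩
    · rw [face1]; exact ⟨Or.inr (by simp), Or.inl rfl⟩
    · rw [face2]; exact ⟨Or.inr (by simp), Or.inr (by simp)⟩
    · rw [face3]; exact ⟨Or.inl rfl, Or.inr (by simp)⟩
  exact key r

/-- The corners of a square are in its closed diamond. -/
theorem zp_Dsq (hδ : 0 < δ) {v x : ℤ × ℤ} (h : Cnr v x) : zp δ x ∈ Dsq δ v := by
  unfold Dsq
  rw [mem_ofPred_eq, H161.zp_re, H161.zp_im, H161.zp_re, H161.zp_im]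
  obtain ⟨h1, h2⟩ := h
  have e1 : (x.1 : ℝ) = v.1 ∨ (x.1 : ℝ) = v.1 + 1 := by
    rcases h1 with h1 | h1 <;> rw [h1] <;> push_cast
    exacts [Or.inl rfl, Or.inr rfl]
  have e2 : (x.2 : ℝ) = v.2 ∨ (x.2 : ℝ) = v.2 + 1 := by
    rcases h2 with h2 | h2 <;> rw [h2] <;> push_cast
    exacts [Or.inl rfl, Or.inr rfl]
  rw [abs2_le]
  rcases e1 with e1 | e1 <;> rcases e2 with e2 | e2 <;> rw [e1, e2] <;>
    refine ⟨?_, ?_, ?_, ?_⟩ <;> nlinarith

/-- The points of a closed diamond. -/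
theorem dist_Dsq {v : ℤ × ℤ} {z z' : ℂ} (h : z ∈ Dsq δ v) (h' : z' ∈ Dsq δ v) :
    dist z z' ≤ δ := by
  unfold Dsq at h h'
  rw [mem_ofPred_eq] at h h'
  rw [dist_eq_norm]
  refine (Complex.norm_le_abs_re_add_abs_im _).trans ?_
  rw [Complex.sub_re, Complex.sub_im]
  set a := (zp δ v).re
  set b := (zp δ v).im
  have h1 : |z.re - z'.re| ≤ |z.re - a - δ / 2| + |z'.re - a - δ / 2| := by
    have := abs_sub (z.re - a - δ / 2) (z'.re - a - δ / 2)
    rwa [show z.re - a - δ / 2 - (z'.re - a - δ / 2) = z.re - z'.re by ring] at this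
  have h2 : |z.im - z'.im| ≤ |z.im - b| + |z'.im - b| := by
    have := abs_sub (z.im - b) (z'.im - b)
    rwa [show z.im - b - (z'.im - b) = z.im - z'.im by ring] at this
  linarith

/-- The position of a medial edge is in the closed diamond of the edge ahead. -/
theorem Pp_Dsq (hδ : 0 < δ) (c : Medial) : Fjord.Pp δ c ∈ Dsq δ (sq (ahead c)) := by
  show _ ∈ Dsq δ (sq s(c.1, c.1 + dir (c.2 + 1)))
  rw [Dsq_eq hδ, ← Dm_sq hδ]
  unfold Fjord.Pp
  rw [mem_Dm hδ]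
  obtain ⟨v, r⟩ := c
  have key : ∀ r : Fin 4, cpt (1 / 4) (v, r) ∈ D1 v (v + dir (r + 1)) := by
    have h0 : (0 : Fin 4) + 1 = 1 := rfl
    have h1 : (1 : Fin 4) + 1 = 2 := rfl
    have h2 : (2 : Fin 4) + 1 = 3 := rfl
    have h3 : (3 : Fin 4) + 1 = 0 := rfl
    refine forall4 ?_ ?_ ?_ ?_
    · rw [h0, Fjord.cpt_0, dir1]
      simp only [D1, mem_ofPred_eq, abs2_le, Prod.fst_add, Prod.snd_add]
      push_cast
      refine ⟨?_, ?_, ?_, ?_⟩ <;> linarith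
    · rw [h1, Fjord.cpt_1, dir2]
      simp only [D1, mem_ofPred_eq, abs2_le, Prod.fst_add, Prod.snd_add]
      push_cast
      refine ⟨?_, ?_, ?_, ?_⟩ <;> linarith
    · rw [h2, Fjord.cpt_2, dir3]
      simp only [D1, mem_ofPred_eq, abs2_le, Prod.fst_add, Prod.snd_add]
      push_cast
      refine ⟨?_, ?_, ?_, ?_⟩ <;> linarith
    · rw [h3, Fjord.cpt_3, dir0]
      simp only [D1, mem_ofPred_eq, abs2_le, Prod.fst_add, Prod.snd_add]
      push_cast
      refine ⟨?_, ?_, ?_, ?_⟩ <;> linarith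
  exact key r

/-- A point of the path in the closed diamond of a read square. -/
theorem rd_pt (hδ : 0 < δ) (hA : A ⊆ edges S) (hj : j - 1 ≤ len p k A) {v : ℤ × ℤ}
    (hv : v ∈ Rd p k S A j) : ∃ z ∈ Dsq δ v, z ∈ pl p k δ A '' Icc 0 (j : ℝ) := by
  obtain ⟨-, i, hi, rfl⟩ := (H161.mem_Rd hA).1 hv
  refine ⟨_, Pp_Dsq hδ _, (i : ℝ) + 1, ⟨by positivity, ?_⟩, Fjord.pl_nat (by omega)⟩
  have : i + 1 ≤ j := by omega
  exact_mod_cast this

/-- A read square has no corner in common with the squares of `PE`, of the cut and of the box. -/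
theorem rd_far (hc : CDat δ p k S A j ψ W t T R Rd' cd Y)
    (hP : PosP δ p k S A j ψ W t q PE a l ε h u) (hC : PosC δ p k A j ψ W t Kc Bb rc cb u)
    {v v' x : ℤ × ℤ} (hv : v ∈ Rd p k S A j) (hx : Cnr v x) (hx' : Cnr v' x) :
    v' ∉ PE ∧ v' ∉ Kc ∪ Bb := by
  obtain ⟨z, hz, hz'⟩ := rd_pt hc.hδ hc.hA hc.hj hv
  have h1 := dist_Dsq (zp_Dsq hc.hδ hx) hz
  constructor
  · intro h2
    have h3 := hP.mar v' h2 _ (zp_Dsq hc.hδ hx') (show z ∈ _ from ?_)
    · rw [hc.dom] at h3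
      exact h3.2 hz'
    · rw [mem_ball, dist_comm]
      linarith [hc.hδ]
  · intro h2
    have h3 := hC.far v' h2 _ (zp_Dsq hc.hδ hx') z hz'
    linarith [hc.hδ]

theorem touch_q (hq : IsPolygon q) (hPE : Encloses q PE) (i : ZMod m) {c : ℤ}
    (hi : ((q i).1 + (q i).2) % 2 = c) : Touch (StM c) PE (q i) :=
  ⟨_, (enc_out hq hPE (i := i)).1, _, stM_of_cnr (cnr_face _ _) hi⟩

theorem inn_mar (hc : CDat δ p k S A j ψ W t T R Rd' cd Y)
    (hP : PosP δ p k S A j ψ W t q PE a l ε h u) : H531.Inn PE S := by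
  intro v hv x y hxy
  have h1 := hP.mar v hv _ (zp_Dsq hc.hδ (cnr_of_stM hxy)) (mem_ball_self (by linarith [hc.hδ]))
  rw [hc.dom] at h1
  refine mem_of_cf hc.hδ ?_
  rw [← cf_zp, rf_rf' (by rw [Int.not_even_iff]; exact hxy.2.2.2)]
  exact h1.1

/-- **The structure `Setg`.** -/
theorem setg_of (hc : CDat δ p k S A j ψ W t T R Rd' cd Y)
    (hP : PosP δ p k S A j ψ W t q PE a l ε h u) (hC : PosC δ p k A j ψ W t Kc Bb rc cb u)
    (hL : CutL p k S jf q PE a l Kc Bb B κ) (h2 : ∀ v ∈ Kc, ω₀ v = κ v) :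
    Setg p S k jf q PE a l (Rd p k S A j ∪ Kc ∪ Bb) ω₀ where
  hp := hc.hp
  hS := hc.hS
  hjk := hL.hjk
  hkn := by have := hc.hkn; omega
  hq := hP.hq
  hPE := hP.hPE
  hin := inn_mar hc hP
  hal := hP.hal
  hlm := hP.hlm
  hy := hP.hy
  iso := by
    have key : ∀ v ∈ Gop p k S (Rd p k S A j ∪ Kc ∪ Bb) ω₀ \ ↑PE, ∀ s s', StM 0 v s s' →
        Touch (StM 0) PE s → s = q l := by
      rintro v ⟨⟨h3, h4, h5⟩, h6⟩ s s' hs ht
      rcases Finset.mem_union.1 h4 with h4 | h4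
      · rcases Finset.mem_union.1 h4 with h4 | h4
        · obtain ⟨v', hv', s'', hs'⟩ := ht
          exact absurd hv' (rd_far hc hP hC h4 (cnr_of_stM hs) (cnr_of_stM' hs')).1
        · refine hL.isoO v h4 h6 ?_ s s' hs ht
          rw [← h2 v h4]
          exact h3
      · exact absurd (hL.hBb h4) h6
    have tch : ∀ x, (x ∈ arcM q 0 0 a ∪ {q l} ∨ Touch (StM 0) PE x) → Touch (StM 0) PE x := by
      rintro x ((⟨i, -, -, rfl, hi⟩ | rfl) | hx)
      · exact touch_q hP.hq hP.hPE _ hi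
      · exact touch_q hP.hq hP.hPE _ hP.hy
      · exact hx
    intro x y hx hy hxy
    left
    rcases Relation.ReflTransGen.cases_head hxy with h1 | ⟨z, ⟨v, hv, hs⟩, -⟩
    · exact h1
    · rcases Relation.ReflTransGen.cases_tail hxy with h1 | ⟨z', -, v', hv', hs'⟩
      · exact h1.symm
      · rw [key v hv x z hs (tch x hx),
          key v' hv' y z' ((isSt_M 0).symm _ _ _ hs') (tch y hy)]
  iso' := by
    have hin := inn_mar hc hP
    have tch : ∀ x, (x ∈ dmo n '' arcM q 1 a l ∪ dmo n '' arcM q 1 l m ∨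
        Touch (StQ p S) PE x) → ∃ v ∈ PE, Cnr v (pos p x) := by
      have h3 : ∀ i : ℕ, ((q i).1 + (q i).2) % 2 = 1 → ∃ v ∈ PE, Cnr v (pos p (dmo n (q i))) := by
        intro i hi
        refine ⟨_, (enc_out hP.hq hP.hPE (i := (i : ZMod m))).1, ?_⟩
        have : pos p (dmo n (q i)) = q i := by
          show rf (rf' (q i)) = q i
          exact rf_rf' (by rw [Int.not_even_iff]; exact hi)
        rw [this]
        exact cnr_face _ _
      rintro x ((⟨_, ⟨i, -, -, rfl, hi⟩, rfl⟩ | ⟨_, ⟨i, -, -, rfl, hi⟩, rfl⟩) | ⟨v, hv, z, hs⟩)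
      · exact h3 i hi
      · exact h3 i hi
      · exact ⟨v, hv, cnr_of_stM' (stQ_pos hc.hp hs)⟩
    intro x y hx hy hxy
    obtain ⟨v₀, hv₀, hv₀'⟩ := tch x hx
    refine hL.isoC x y hx hy ?_
    have key : ∀ z, Cn (StQ p S) (Gcl p k S (Rd p k S A j ∪ Kc ∪ Bb) ω₀ \ ↑PE) x z →
        Cn (StQ p S) ({v | v ∈ Kc ∧ κ v = false} \ ↑PE) x z ∧
          ∃ v, (v ∈ PE ∨ v ∈ Kc ∪ Bb) ∧ Cnr v (pos p z) := by
      intro z hz
      induction hz with
      | refl => exact ⟨Cn.refl _ _, v₀, Or.inl hv₀, hv₀'⟩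
      | @tail b c _ hbc ih =>
        obtain ⟨h3, v, hv, hv'⟩ := ih
        obtain ⟨v', ⟨⟨h4, h5, h6⟩, h7⟩, hs⟩ := hbc
        have hb : Cnr v' (pos p b) := cnr_of_stM (stQ_pos hc.hp hs)
        have hcc : Cnr v' (pos p c) := cnr_of_stM' (stQ_pos hc.hp hs)
        rcases Finset.mem_union.1 h5 with h5 | h5
        · rcases Finset.mem_union.1 h5 with h5 | h5
          · exfalso
            have h8 := rd_far hc hP hC h5 hb hv'
            rcases hv with hv | hv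
            exacts [h8.1 hv, h8.2 hv]
          · refine ⟨h3.tail ⟨v', ⟨⟨h5, ?_⟩, h7⟩, hs⟩, v', Or.inr (Finset.mem_union_left _ h5), hcc⟩
            rw [← h2 v' h5]
            have h9 : ¬ ω₀ v' = true := h4
            exact Bool.eq_false_iff.2 h9
        · exact absurd (hL.hBb h5) h7
    exact (key y hxy).1
  foot := by
    refine hL.foot.mono ?_
    rintro v ⟨h3, h4⟩
    refine ⟨?_, ?_, hL.hKD h3⟩
    · show ω₀ v = true
      rw [h2 v h3]
      exact h4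
    · exact Finset.mem_coe.2 (Finset.mem_union_left _ (Finset.mem_union_right _ h3))

end Vale.Agent.P167.H634
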